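import Vale.Agent.P177.AR.TE

/-!
P177, almost Artin-Rees for perfect hulls (abstract form): the transfer property (TR) of
Teichmueller elements between powers of the ideals generated by `[g]`, `[y]` modulo
`(p - [t], p ^ ν)` implies `h (perfHull P ∩ perfHull (Y ^ B)) ⊆ perfHull (Y ^ K P)`,
`h = g'^((m+1)/q) γ₀^(1/q)`.
-/

namespace Vale.Agent.P177.PI

open WittVector Vale.Agent.P177.Perf

universe u

variable (p : ℕ) [hp : Fact p.Prime] {C : Type u} [CommRing C] [CharP C p]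

/-- the ideal of `W(C)` generated by the Teichmueller elements `[g_l]`. -/
noncomputable def TG {m : ℕ} (g : Fin m → C) : Ideal (WittVector p C) :=
  Ideal.span (Set.range fun l => teichmuller p (g l))

/-- the ideal `(p - [t], p ^ ν)`. -/
noncomputable def XI (t : C) (ν : ℕ) : Ideal (WittVector p C) :=
  Ideal.span {(p : WittVector p C) - teichmuller p t} ⊔ Ideal.span {(p : WittVector p C) ^ ν}

omit [CharP C p] in
theorem mem_XI {t : C} {ν : ℕ} {x : WittVector p C} : x ∈ XI p t ν ↔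
    ∃ v w, x = ((p : WittVector p C) - teichmuller p t) * v + (p : WittVector p C) ^ ν * w := by
  unfold XI
  rw [Submodule.mem_sup]
  constructor
  · rintro ⟨a, ha, b, hb, rfl⟩
    rw [Ideal.mem_span_singleton'] at ha hb
    obtain ⟨v, rfl⟩ := ha
    obtain ⟨w, rfl⟩ := hb
    exact ⟨v, w, by ring⟩
  · rintro ⟨v, w, rfl⟩
    exact ⟨_, Ideal.mul_mem_right _ _ (Ideal.mem_span_singleton_self _), _,
      Ideal.mul_mem_right _ _ (Ideal.mem_span_singleton_self _), rfl⟩

omit [CharP C p] in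
theorem te_mul_mem_span {m : ℕ} (g : Fin m → C) (l : Fin m) :
    teichmuller p (g l) ∈ TG p g := Ideal.subset_span ⟨l, rfl⟩

omit [CharP C p] in
theorem TG_mul_le {m : ℕ} (g : Fin m → C) {I J : Ideal (WittVector p C)}
    (h : ∀ l, ∀ x ∈ I, teichmuller p (g l) * x ∈ J) : TG p g * I ≤ J := by
  rw [Ideal.mul_le]
  intro r hr s hs
  refine Submodule.span_induction (p := fun r _ => r * s ∈ J) ?_ ?_ ?_ ?_ hr
  · rintro _ ⟨l, rfl⟩
    exact h l s hs
  · rw [zero_mul]; exact zero_mem _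
  · intro a b _ _ ha hb
    rw [add_mul]; exact add_mem ha hb
  · intro a b _ hb
    rw [smul_eq_mul, mul_assoc]; exact Ideal.mul_mem_left _ _ hb

variable [PerfectRing C p]

/-- `([y])^l ([g])^k ⊆ W(perfHull (Y^l P^k))`. -/
theorem TG_pow_mul_le {m n : ℕ} (g : Fin m → C) (y : Fin n → C) (l k : ℕ) :
    TG p y ^ l * TG p g ^ k ≤ WI p (perfHull p (Ideal.span (Set.range y) ^ l *
      Ideal.span (Set.range g) ^ k)) := by
  induction l with
  | zero =>
    rw [pow_zero, pow_zero, one_mul, one_mul]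
    induction k with
    | zero =>
      rw [pow_zero, pow_zero, Ideal.one_eq_top, Ideal.one_eq_top, perfHull_top]
      intro x _
      rw [mem_WI]
      intro N
      unfold TN TI
      have h1 : (1 : WittVector p C) ∈ Ideal.span ((fun c => teichmuller p c) ''
          ((⊤ : Ideal C) : Set C)) := Ideal.subset_span ⟨1, Submodule.mem_top, map_one _⟩
      rw [(Ideal.eq_top_iff_one _).2 h1, top_sup_eq]
      exact Submodule.mem_top
    | succ k ih =>
      rw [pow_succ']
      refine TG_mul_le p g fun i x hx => ?_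
      refine te_mul_mem_WI (p := p) (isPerf_perfHull p _) (fun c hc => ?_) (ih hx)
      have h1 : g i ∈ perfHull p (Ideal.span (Set.range g)) :=
        le_perfHull (Ideal.subset_span ⟨i, rfl⟩)
      have h2 := mul_mem_perfHull h1 hc
      rwa [← pow_succ'] at h2
  | succ l ih =>
    rw [pow_succ', mul_assoc]
    refine TG_mul_le p y fun i x hx => ?_
    refine te_mul_mem_WI (p := p) (isPerf_perfHull p _) (fun c hc => ?_) (ih hx)
    have h1 : y i ∈ perfHull p (Ideal.span (Set.range y)) :=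
      le_perfHull (Ideal.subset_span ⟨i, rfl⟩)
    have h2 := mul_mem_perfHull h1 hc
    rwa [← mul_assoc, ← pow_succ'] at h2

/-- the pigeonhole at the level of Witt vectors. -/
theorem mem_TG_of_mem_WI {m : ℕ} (g : Fin m → C) {t : C} (ht : t ∈ nonZeroDivisors C) (ν : ℕ)
    (k : ℕ) {x : WittVector p C}
    (hx : x ∈ WI p (perfHull p (Ideal.span (Set.range g) ^ (k + m)))) :
    x ∈ TG p g ^ k ⊔ XI p t ν := by
  induction k generalizing x with
  | zero => rw [pow_zero, Ideal.one_eq_top, top_sup_eq]; exact Submodule.mem_top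
  | succ k ih =>
    have hJF : ∀ s, JF p (⊤ : Ideal C) g s = perfHull p (Ideal.span (Set.range g) ^ s) := by
      intro s
      unfold JF
      rw [Ideal.top_mul]
    have hx' : x ∈ WI p (JF p (⊤ : Ideal C) g (k + 1 + m)) := by rwa [hJF]
    obtain ⟨w, hw, h⟩ := kosW_sko p (⊤ : Ideal C) ⟨{1}, by simp⟩ g ht ν (k + 1 + m) (by omega) hx'
    have h0 : x - ∑ l, teichmuller p (g l) * w l ∈ XI p t ν := by
      unfold XI
      exact Ideal.mul_le_left h
    have h1 : x - ∑ l, teichmuller p (g l) * w l ∈ TG p g ^ (k + 1) ⊔ XI p t ν :=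
      (le_sup_right : XI p t ν ≤ TG p g ^ (k + 1) ⊔ XI p t ν) h0
    have h2 : ∑ l, teichmuller p (g l) * w l ∈ TG p g ^ (k + 1) ⊔ XI p t ν := by
      refine Ideal.sum_mem _ fun l _ => ?_
      have h3 := hw l
      rw [hJF, show k + 1 + m - 1 = k + m by omega] at h3
      obtain ⟨a, ha, b, hb, hab⟩ := Submodule.mem_sup.1 (ih h3)
      rw [← hab, mul_add]
      refine add_mem ((le_sup_left : TG p g ^ (k + 1) ≤ TG p g ^ (k + 1) ⊔ XI p t ν) ?_)
        ((le_sup_right : XI p t ν ≤ TG p g ^ (k + 1) ⊔ XI p t ν) (Ideal.mul_mem_left _ _ hb))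
      rw [pow_succ']
      exact Ideal.mul_mem_mul (te_mul_mem_span p g l) ha
    have h3 := add_mem h1 h2
    rwa [sub_add_cancel] at h3

/-- **Almost Artin-Rees, abstract form.** -/
theorem ar_abs {m n : ℕ} (g : Fin m → C) (y : Fin n → C) {t : C} (ht : t ∈ nonZeroDivisors C)
    (hty : t ∈ Ideal.span (Set.range y)) (γ0 g' : C) (hg' : g' ∈ Ideal.span (Set.range g))
    (f k K B K2 l ν : ℕ) (hk : k + m = p ^ f) (hK2 : K2 + n = B * p ^ f) (hl : K * p ^ f ≤ l)
    (hν : l * p ^ f ≤ ν)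
    (hTR : ∀ z : C, teichmuller p z ∈ TG p g ^ k ⊔ XI p t ν →
      teichmuller p z ∈ TG p y ^ K2 ⊔ XI p t ν →
      teichmuller p (γ0 * z) ∈ TG p y ^ l * TG p g ^ k ⊔ XI p t ν)
    {x : C} (hx : x ∈ perfHull p (Ideal.span (Set.range g)))
    (hx' : x ∈ perfHull p (Ideal.span (Set.range y) ^ B)) :
    rt p f g' ^ (m + 1) * rt p f γ0 * x ∈
      perfHull p (Ideal.span (Set.range y) ^ K * Ideal.span (Set.range g)) := by
  set P := Ideal.span (Set.range g) with hP
  set Y := Ideal.span (Set.range y) with hY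
  set q := p ^ f with hq
  -- the element `z = x ^ q`
  have hz1 : x ^ q ∈ perfHull p (P ^ q) := pow_mem_perfHull_iff.2 hx
  have hz2 : x ^ q ∈ perfHull p (Y ^ (B * q)) := by
    rw [pow_mul]
    exact pow_mem_perfHull_iff.2 hx'
  have hT1 : teichmuller p (x ^ q) ∈ TG p g ^ k ⊔ XI p t ν := by
    apply mem_TG_of_mem_WI p g ht ν k
    rw [hk]
    exact te_mem_WI p hz1
  have hT2 : teichmuller p (x ^ q) ∈ TG p y ^ K2 ⊔ XI p t ν := by
    apply mem_TG_of_mem_WI p y ht ν K2
    rw [hK2]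
    exact te_mem_WI p hz2
  obtain ⟨κ, hκ, e, he, hκe⟩ := Submodule.mem_sup.1 (hTR _ hT1 hT2)
  obtain ⟨v, w, hvw⟩ := (mem_XI p).1 he
  set K1 := perfHull p (Y ^ l * P ^ k) with hK1
  set N' := perfHull p (P ^ k) with hN'
  have hK1p : IsPerf p K1 := isPerf_perfHull p _
  have hN'p : IsPerf p N' := isPerf_perfHull p _
  have hκ1 : κ ∈ WI p K1 := TG_pow_mul_le p g y l k hκ
  have hK1N : K1 ≤ N' := perfHull_mono Ideal.mul_le_right
  have hzN : γ0 * x ^ q ∈ N' :=
    Ideal.mul_mem_left _ _ (perfHull_mono (Ideal.pow_le_pow_right (by omega)) hz1)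
  have hτ : teichmuller p (γ0 * x ^ q) - κ ∈ WI p N' :=
    sub_mem (te_mem_WI p hzN) (WI_mono p hK1N hκ1)
  have hgk : g' ^ k ∈ N' := le_perfHull (Ideal.pow_mem_pow hg' k)
  have htl : ∀ c ∈ N', t ^ l * c ∈ K1 := by
    intro c hc
    exact mul_mem_perfHull (le_perfHull (Ideal.pow_mem_pow hty l)) hc
  have hpf : 0 < q := Nat.pow_pos hp.out.pos
  -- the case `ν = 0` is `l = 0`, `K = 0`
  have key : rt p f ((g' ^ k) ^ 1) * (γ0 * x ^ q) ∈ K1 := by
    rcases Nat.eq_zero_or_pos l with hl0 | hl0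
    · have h1 := htl _ hzN
      rw [hl0, pow_zero, one_mul] at h1
      exact Ideal.mul_mem_left _ _ h1
    have hν1 : 1 ≤ ν := le_trans (Nat.mul_pos hl0 hpf) hν
    obtain ⟨I, rfl⟩ : ∃ I, ν = I + 1 := ⟨ν - 1, by omega⟩
    obtain ⟨v', hv', w', hw', hrel⟩ := te_mul_mem p hN'p ht hτ I (v := v) (w := w)
      (by rw [← hκe, ← hvw]; ring) hgk f 1 l (Nat.one_le_pow _ _ hp.out.pos) (by rw [mul_one]; exact hν)
    have hgeom : (∑ i ∈ Finset.range l, (p : WittVector p C) ^ i *
        teichmuller p t ^ (l - 1 - i)) * ((p : WittVector p C) - teichmuller p t) =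
        (p : WittVector p C) ^ l - teichmuller p t ^ l :=
      (Commute.all (p : WittVector p C) (teichmuller p t)).geom_sum₂_mul l
    refine te_transfer p hK1p hN'p t _ l htl (Ideal.mul_mem_left _ _ hzN)
      (v := v' + (∑ i ∈ Finset.range l, (p : WittVector p C) ^ i *
        teichmuller p t ^ (l - 1 - i)) * w')
      (j := teichmuller p (rt p f ((g' ^ k) ^ 1)) * κ + teichmuller p (t ^ l) * w')
      (add_mem hv' (Ideal.mul_mem_left _ _ hw'))
      (add_mem (Ideal.mul_mem_left _ _ hκ1) (te_mul_mem_WI (p := p) hN'p htl hw')) ?_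
    rw [map_mul (teichmuller p) (rt p f ((g' ^ k) ^ 1)), map_pow (teichmuller p) t]
    linear_combination hrel - w' * hgeom
  -- `g' = b * rt(g')^m`
  have hb : rt p f ((g' ^ k) ^ 1) = rt p f g' ^ k := by
    apply pow_pow_inj p f
    rw [rt_pow, pow_one, ← pow_mul, mul_comm k (p ^ f), pow_mul, rt_pow]
  rw [hb] at key
  have h1 : g' * (γ0 * x ^ q) ∈ K1 := by
    have h2 := Ideal.mul_mem_left _ (rt p f g' ^ m) key
    have h3 : rt p f g' ^ m * (rt p f g' ^ k * (γ0 * x ^ q)) = g' * (γ0 * x ^ q) := by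
      rw [← mul_assoc, ← pow_add, add_comm m k, hk, hq, rt_pow]
    rwa [h3] at h2
  have h4 : g' ^ m * (g' * (γ0 * x ^ q)) ∈ perfHull p ((Y ^ K * P) ^ q) := by
    have h5 : g' ^ m ∈ perfHull p (P ^ m) := le_perfHull (Ideal.pow_mem_pow hg' m)
    have h6 := mul_mem_perfHull h5 h1
    refine perfHull_mono ?_ h6
    have h7 : P ^ m * (Y ^ l * P ^ k) = Y ^ l * P ^ q := by
      rw [← hk, pow_add]; ring
    rw [h7, mul_pow, ← pow_mul]
    exact Ideal.mul_mono_left (Ideal.pow_le_pow_right hl)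
  rw [hq] at h4
  rw [← pow_mem_perfHull_iff (e := f)]
  have h8 : (rt p f g' ^ (m + 1) * rt p f γ0 * x) ^ p ^ f = g' ^ m * (g' * (γ0 * x ^ q)) := by
    rw [mul_pow, mul_pow, rt_pow, ← pow_mul, mul_comm (m + 1), pow_mul, rt_pow, pow_succ, hq]
    ring
  rw [h8]
  exact h4

end Vale.Agent.P177.PI
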