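import Vale.Agent.P177.PI.KosW

/-!
P177: the uniform Artin-Rees lemma for perfect ideals, `perfHull P ∩ perfHull (Y ^ (K + c + 1))` is
contained in `perfHull (P Y ^ K)` up to a small multiplier. Everything except the intersection
property (HF) of the truncated ring homomorphism `A1 → W(C) / (p - [t], p ^ ν)`.
-/

namespace Vale.Agent.P177.AR

open Vale.Agent.P177.Perf Vale.Agent.P177.PI WittVector

universe u

section pigeon

variable (p : ℕ) [hp : Fact p.Prime] {C : Type u} [CommRing C] [CharP C p] [PerfectRing C p]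

/-- the Witt vector with digits `d`. -/
def wd (d : ℕ → C) : WittVector p C := WittVector.mk p fun k => d k ^ p ^ k

omit [PerfectRing C p] in
theorem wd_succ (d : ℕ → C) :
    wd p d = teichmuller p (d 0) + (p : WittVector p C) * wd p fun k => d (k + 1) := by
  ext k
  rcases k with _ | k
  · have h1 : (teichmuller p (d 0) + (p : WittVector p C) * wd p fun k => d (k + 1)).coeff 0 =
        (teichmuller p (d 0)).coeff 0 + ((p : WittVector p C) * wd p fun k => d (k + 1)).coeff 0 :=
      map_add (WittVector.constantCoeff (p := p) (R := C)) _ _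
    rw [h1, p_mul_coeff_zero, teichmuller_coeff_zero, add_zero, wd, coeff_mk, pow_zero, pow_one]
  · rw [te_add_p_mul_coeff_succ, wd, wd, coeff_mk, coeff_mk, ← pow_mul, ← pow_succ]

theorem wd_mem {J : Ideal C} {d : ℕ → C} (h : ∀ k, d k ∈ J) : wd p d ∈ WI p J :=
  mem_WI_of_coeff p fun k => ⟨d k, h k, by rw [wd, coeff_mk]⟩

theorem eq_zero_of_forall_dvd {x : WittVector p C} (h : ∀ n, (p : WittVector p C) ^ n ∣ x) :
    x = 0 := by
  ext n
  have h1 := h (n + 1)
  rw [← sub_zero x] at h1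
  exact P202.Mix.coeff_eq_of_dvd_sub h1 (Nat.lt_succ_self n)

theorem exists_sum_WI {N : ℕ} (a : Fin N → C) {J : Ideal C} (hJ : IsPerf p J) (G : Fin N → Ideal C)
    (hG : ∀ i, ∀ c ∈ G i, a i * c ∈ J)
    (h : ∀ x ∈ J, ∃ c : Fin N → C, (∀ i, c i ∈ G i) ∧ x = ∑ i, a i * c i)
    {x : WittVector p C} (hx : x ∈ WI p J) :
    ∃ w : Fin N → WittVector p C, (∀ i, w i ∈ WI p (G i)) ∧ x = ∑ i, teichmuller p (a i) * w i := by
  have step : ∀ x : WI p J, ∃ (c : Fin N → C) (x' : WI p J), (∀ i, c i ∈ G i) ∧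
      (x : WittVector p C) = ∑ i, teichmuller p (a i) * teichmuller p (c i) + p * x' := by
    rintro ⟨x, hx⟩
    obtain ⟨h0, x1, hx1, he⟩ := exists_of_mem_WI p hJ hx
    obtain ⟨c, hc, hce⟩ := h _ h0
    have h2 : teichmuller p (x.coeff 0) - ∑ i, teichmuller p (a i) * teichmuller p (c i) ∈
        WI p J := by
      refine sub_mem (te_mem_WI p h0) (Ideal.sum_mem _ fun i _ => ?_)
      rw [← map_mul]
      exact te_mem_WI p (hG i _ (hc i))
    have h3 : (teichmuller p (x.coeff 0) -
        ∑ i, teichmuller p (a i) * teichmuller p (c i)).coeff 0 = 0 := by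
      have h4 : WittVector.constantCoeff (teichmuller p (x.coeff 0) -
          ∑ i, teichmuller p (a i) * teichmuller p (c i)) = 0 := by
        rw [map_sub, map_sum]
        have h5 : ∀ b : C, WittVector.constantCoeff (teichmuller p b) = b :=
          fun b => teichmuller_coeff_zero p b
        simp only [map_mul, h5]
        rw [← hce, sub_self]
      exact h4
    obtain ⟨y, hy, hye⟩ := exists_p_mul_of_coeff_zero p hJ h2 h3
    refine ⟨c, ⟨y + x1, add_mem hy hx1⟩, hc, ?_⟩
    change x = _ + _ * (y + x1)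
    linear_combination he + hye
  choose c nx hc hnx using step
  let X : ℕ → WI p J := fun k => Nat.rec ⟨x, hx⟩ (fun _ z => nx z) k
  have hX0 : X 0 = ⟨x, hx⟩ := rfl
  have hXs : ∀ k, X (k + 1) = nx (X k) := fun k => rfl
  refine ⟨fun i => wd p fun k => c (X k) i, fun i => wd_mem p fun k => hc _ i, ?_⟩
  let E : ℕ → WittVector p C := fun k => (X k).1 - ∑ i, teichmuller p (a i) *
    wd p fun j => c (X (k + j)) i
  have hE : ∀ k, E k = p * E (k + 1) := by
    intro k
    have h1 : ∀ i, wd p (fun j => c (X (k + j)) i) = teichmuller p (c (X k) i) +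
        (p : WittVector p C) * wd p fun j => c (X (k + 1 + j)) i := by
      intro i
      rw [wd_succ]
      simp only [add_zero]
      congr 3
      funext j
      rw [add_assoc, add_comm 1 j]
    simp only [E]
    rw [Finset.sum_congr rfl fun i _ => by rw [h1 i], hnx (X k), hXs k]
    simp only [mul_add, Finset.sum_add_distrib, mul_sub, Finset.mul_sum]
    have h2 : ∀ i, teichmuller p (a i) * ((p : WittVector p C) *
        wd p fun j => c (X (k + 1 + j)) i) = p * (teichmuller p (a i) *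
        wd p fun j => c (X (k + 1 + j)) i) := fun i => by ring
    simp only [h2]
    ring
  have hE' : ∀ n, (p : WittVector p C) ^ n ∣ E 0 := by
    intro n
    have : E 0 = p ^ n * E n := by
      induction n with
      | zero => simp
      | succ n ih => rw [ih, hE n]; ring
    exact ⟨_, this⟩
  have h0 := eq_zero_of_forall_dvd p hE'
  simp only [E, zero_add] at h0
  exact sub_eq_zero.1 h0

/-- one step of the pigeonhole. -/
theorem exists_sum_perfHull {N : ℕ} (a : Fin N → C) (P : Ideal C) {n : ℕ} (hn : N ≤ n + 1)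
    {x : WittVector p C} (hx : x ∈ WI p (perfHull p (P * Ideal.span (Set.range a) ^ (n + 1)))) :
    ∃ w : Fin N → WittVector p C,
      (∀ i, w i ∈ WI p (perfHull p (P * Ideal.span (Set.range a) ^ n))) ∧
      x = ∑ i, teichmuller p (a i) * w i := by
  refine exists_sum_WI p a (isPerf_perfHull p _) (fun _ => perfHull p _) ?_ ?_ hx
  · intro i c hc
    exact mul_gen_mem_perfHull (Ideal.subset_span ⟨i, rfl⟩) hc
  · intro x hx
    exact exists_sum_of_mem_perfHull a P hn hx

/-- the ideal generated by the Teichmueller elements `[a i]`. -/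
noncomputable def TS {N : ℕ} (a : Fin N → C) : Ideal (WittVector p C) :=
  Ideal.span (Set.range fun i => teichmuller p (a i))

theorem WI_perfHull_le {N : ℕ} (a : Fin N → C) (P : Ideal C) {n : ℕ} (hn : N ≤ n + 1) (j : ℕ) :
    WI p (perfHull p (P * Ideal.span (Set.range a) ^ (n + j))) ≤
      TS p a ^ j * WI p (perfHull p (P * Ideal.span (Set.range a) ^ n)) := by
  induction j with
  | zero => rw [pow_zero, Ideal.one_eq_top, Ideal.top_mul, add_zero]
  | succ j ih =>
    intro x hx
    rw [← add_assoc] at hx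
    obtain ⟨w, hw, rfl⟩ := exists_sum_perfHull p a P (by omega) hx
    refine Ideal.sum_mem _ fun i _ => ?_
    rw [pow_succ', mul_assoc]
    exact Ideal.mul_mem_mul (Ideal.subset_span ⟨i, rfl⟩) (ih (hw i))

theorem WI_perfHull_pow_le {N : ℕ} (a : Fin N → C) (q : ℕ) :
    WI p (perfHull p (Ideal.span (Set.range a) ^ q)) ≤ TS p a ^ (q - N) := by
  by_cases h : N ≤ q
  · have h1 := WI_perfHull_le p a ⊤ (n := N) (by omega) (q - N)
    rw [Ideal.top_mul, Nat.add_sub_cancel' h] at h1
    exact h1.trans Ideal.mul_le_left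
  · rw [Nat.sub_eq_zero_of_le (by omega), pow_zero, Ideal.one_eq_top]
    exact le_top

end pigeon

section te

variable (p : ℕ) [hp : Fact p.Prime] {C : Type u} [CommRing C] [CharP C p] [PerfectRing C p]

theorem te_aux {K : Ideal C} (hK : IsPerf p K) (t z : C) (M : ℕ) (hM : 1 ≤ M)
    (h : ∃ a ∈ WI p K, ∃ v, ∑ i ∈ Finset.range M, (p : WittVector p C) ^ i *
      teichmuller p (t ^ (M - 1 - i) * z) = a + (p : WittVector p C) ^ M * v) : z ∈ K := by
  induction M, hM using Nat.le_induction with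
  | base =>
    obtain ⟨a, ha, v, he⟩ := h
    rw [Finset.sum_range_one, pow_zero, one_mul, pow_zero, one_mul, pow_one] at he
    have h1 := congrArg WittVector.constantCoeff he
    rw [map_add, map_mul, map_natCast, CharP.cast_eq_zero, zero_mul, add_zero] at h1
    have h2 : z = a.coeff 0 := by
      rw [← teichmuller_coeff_zero p z]; exact h1
    rw [h2]
    exact coeff_zero_mem p hK ha
  | succ M hM ih =>
    obtain ⟨a, ha, v, he⟩ := h
    apply ih
    obtain ⟨-, a', ha', hae⟩ := exists_of_mem_WI p hK ha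
    refine ⟨a', ha', v, ?_⟩
    have hsum : ∑ i ∈ Finset.range (M + 1), (p : WittVector p C) ^ i *
        teichmuller p (t ^ (M + 1 - 1 - i) * z) = teichmuller p (t ^ M * z) + p *
        ∑ i ∈ Finset.range M, (p : WittVector p C) ^ i *
          teichmuller p (t ^ (M - 1 - i) * z) := by
      rw [Finset.sum_range_succ', Finset.mul_sum, add_comm, pow_zero, one_mul, Nat.sub_zero,
        Nat.add_sub_cancel]
      refine congrArg (teichmuller p (t ^ M * z) + ·) (Finset.sum_congr rfl fun i _ => ?_)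
      have h4 : M - (i + 1) = M - 1 - i := by omega
      rw [h4, pow_succ', mul_assoc]
    rw [hsum] at he
    have h0 : a.coeff 0 = t ^ M * z := by
      generalize (∑ i ∈ Finset.range M, (p : WittVector p C) ^ i *
          teichmuller p (t ^ (M - 1 - i) * z)) = S at he
      have h5 : a = teichmuller p (t ^ M * z) + p * (S - p ^ M * v) := by
        linear_combination -he
      have h1 : a.coeff 0 = (teichmuller p (t ^ M * z)).coeff 0 +
          ((p : WittVector p C) * (S - p ^ M * v)).coeff 0 := by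
        rw [h5]
        exact map_add (WittVector.constantCoeff (p := p) (R := C)) _ _
      rw [h1, p_mul_coeff_zero, teichmuller_coeff_zero, add_zero]
    rw [h0] at hae
    have h3 : (∑ i ∈ Finset.range M, (p : WittVector p C) ^ i *
      teichmuller p (t ^ (M - 1 - i) * z) - (a' + p ^ M * v)) * (p : WittVector p C) = 0 := by
      linear_combination he + hae
    exact sub_eq_zero.1 (WittVector.eq_zero_of_p_mul_eq_zero _ h3)

/-- **Lemma TE.** -/
theorem te_lemma {N' K : Ideal C} (hN' : IsPerf p N') (hK : IsPerf p K) {t : C} (L : ℕ)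
    (ht : ∀ z ∈ N', t ^ L * z ∈ K) {z : C}
    (hz : z ∈ N')
    (h : ∃ a ∈ WI p K, ∃ v ∈ WI p N', teichmuller p z = a + ((p : WittVector p C) -
      teichmuller p t) * v) : z ∈ K := by
  rcases Nat.eq_zero_or_pos L with rfl | hL
  · simpa using ht z hz
  refine te_aux p hK t z L hL ?_
  obtain ⟨a, ha, v, hv, he⟩ := h
  have hgeom : (∑ j ∈ Finset.range L, (p : WittVector p C) ^ j * teichmuller p t ^ (L - 1 - j)) *
      ((p : WittVector p C) - teichmuller p t) = (p : WittVector p C) ^ L -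
        teichmuller p t ^ L :=
    Commute.geom_sum₂_mul (Commute.all (p : WittVector p C) (teichmuller p t)) L
  refine ⟨(∑ j ∈ Finset.range L, (p : WittVector p C) ^ j * teichmuller p t ^ (L - 1 - j)) * a -
    teichmuller p (t ^ L) * v, sub_mem (Ideal.mul_mem_left _ _ ha) (te_mul_mem_WI p hN' ht hv),
    v, ?_⟩
  have h1 : ∑ i ∈ Finset.range L, (p : WittVector p C) ^ i *
      teichmuller p (t ^ (L - 1 - i) * z) = (∑ j ∈ Finset.range L, (p : WittVector p C) ^ j *
        teichmuller p t ^ (L - 1 - j)) * teichmuller p z := by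
    rw [Finset.sum_mul]
    refine Finset.sum_congr rfl fun i _ => ?_
    rw [map_mul, map_pow]
    ring
  rw [h1, he, map_pow]
  linear_combination v * hgeom

end te

section main

variable (p : ℕ) [hp : Fact p.Prime] {C : Type u} [CommRing C]

omit hp in
theorem TI_eq_top [hp : Fact p.Prime] : TI p (⊤ : Ideal C) = ⊤ := by
  rw [Ideal.eq_top_iff_one]
  have h1 := te_mem_TI p (J := (⊤ : Ideal C)) (c := 1) Submodule.mem_top
  rwa [map_one] at h1

theorem TI_mul_le (I J : Ideal C) : TI p I * TI p J ≤ TI p (I * J) := by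
  unfold TI
  rw [Ideal.span_mul_span', Ideal.span_le]
  rintro _ ⟨_, ⟨a, ha, rfl⟩, _, ⟨b, hb, rfl⟩, rfl⟩
  simp only
  rw [← map_mul]
  exact te_mem_TI p (Ideal.mul_mem_mul ha hb)

theorem TI_pow_le (I : Ideal C) (k : ℕ) : TI p I ^ k ≤ TI p (I ^ k) := by
  induction k with
  | zero => rw [pow_zero, pow_zero, Ideal.one_eq_top, Ideal.one_eq_top, TI_eq_top]
  | succ k ih =>
    rw [pow_succ, pow_succ]
    exact (Ideal.mul_mono ih le_rfl).trans (TI_mul_le p _ _)

theorem TS_le_TI {N : ℕ} (a : Fin N → C) : TS p a ≤ TI p (Ideal.span (Set.range a)) := by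
  rw [TS, Ideal.span_le]
  rintro _ ⟨i, rfl⟩
  exact te_mem_TI p (Ideal.subset_span ⟨i, rfl⟩)

variable [CharP C p]

theorem TS_mul_le {N n : ℕ} (ω : Fin N → C) (y : Fin n → C) (k l : ℕ) :
    TS p y ^ l * TS p ω ^ k ≤ WI p (perfHull p (Ideal.span (Set.range ω) ^ k *
      Ideal.span (Set.range y) ^ l)) := by
  rw [mul_comm]
  refine (Ideal.mul_mono ((Ideal.pow_right_mono (TS_le_TI p ω) k).trans (TI_pow_le p _ k))
    ((Ideal.pow_right_mono (TS_le_TI p y) l).trans (TI_pow_le p _ l))).trans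
    ((TI_mul_le p _ _).trans ((TI_le_WI p _).trans (WI_mono p le_perfHull)))

variable [PerfectRing C p]

/-- the perfect ideals: uniform Artin-Rees. -/
theorem ar_main {A1 : Type*} [CommRing A1] {O : Type*} [CommRing O] (π : WittVector p C →+* O)
    (hπ : Function.Surjective π) {t : C} (ht : t ∈ nonZeroDivisors C) (ν : ℕ)
    (hker : ∀ x, π x = 0 → ∃ v w, x = ((p : WittVector p C) - teichmuller p t) * v +
      (p : WittVector p C) ^ ν * w)
    (hpν : (p : O) ^ ν = 0)
    (ψ : A1 →+* O) {N n : ℕ} (ω : Fin N → C) (y : Fin n → C)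
    (hty : t ∈ Ideal.span (Set.range y))
    (ω1 : Fin N → A1) (hω : ∀ i, ψ (ω1 i) = π (teichmuller p (ω i)))
    (y1 : Fin n → A1) (hy : ∀ i, ψ (y1 i) = π (teichmuller p (y i)))
    (hp1 : (p : A1) ∈ Ideal.span (Set.range y1)) (γ : C)
    (HF : ∀ I J : Ideal A1, (p : A1) ^ ν ∈ I → (p : A1) ^ ν ∈ J → ∀ m, m ∈ I.map ψ →
      m ∈ J.map ψ → π (teichmuller p γ) * m ∈ (I ⊓ J).map ψ)
    (c : ℕ) (hc : ∀ (l k : ℕ) (x : A1), x ∈ Ideal.span (Set.range y1) ^ l →
      x ∈ Ideal.span (Set.range ω1) ^ k →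
      x ∈ Ideal.span (Set.range y1) ^ (l - c * k) * Ideal.span (Set.range ω1) ^ k)
    {g : C} (hg : g ∈ perfHull p (Ideal.span (Set.range ω))) (K f k m : ℕ)
    (hqN : N ≤ p ^ f) (hqn : n ≤ p ^ f)
    (hm : m ≤ p ^ k) (hθ : (K + c + 1) * p ^ f * p ^ k ≤ ν * m)
    {x : C} (hx : x ∈ perfHull p (Ideal.span (Set.range ω)))
    (hx' : x ∈ perfHull p (Ideal.span (Set.range y) ^ (K + c + 1))) :
    rt p k (g ^ m) * rt p f (γ * g ^ N) * x ∈
      perfHull p (Ideal.span (Set.range ω) * Ideal.span (Set.range y) ^ K) := by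
  have hpf : 0 < p ^ f := Nat.pow_pos hp.out.pos
  have hpk : 0 < p ^ k := Nat.pow_pos hp.out.pos
  set q := p ^ f with hq
  set P := Ideal.span (Set.range ω) with hP
  set Y := Ideal.span (Set.range y) with hY
  set P1 := Ideal.span (Set.range ω1) with hP1
  set Y1 := Ideal.span (Set.range y1) with hY1
  set k' := q - N with hk'
  set K1 := (K + c + 1) * q - n with hK1
  set l := K1 - c * k' with hl
  have hν : (K + c + 1) * q ≤ ν := by
    have h1 : (K + c + 1) * q * p ^ k ≤ ν * p ^ k := hθ.trans (Nat.mul_le_mul_left _ hm)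
    exact Nat.le_of_mul_le_mul_right h1 hpk
  have hlK : K * q ≤ l := by
    have h1 : c * k' ≤ c * q := Nat.mul_le_mul_left _ (Nat.sub_le _ _)
    have h2 : (K + c + 1) * q = K * q + c * q + q := by ring
    omega
  -- the element `w`
  set w := x ^ q with hw
  have hwP : w ∈ perfHull p (P ^ q) := pow_mem_perfHull_iff.2 hx
  have hwY : w ∈ perfHull p (Y ^ ((K + c + 1) * q)) := by
    rw [pow_mul]
    exact pow_mem_perfHull_iff.2 hx'
  have h1 : teichmuller p w ∈ TS p ω ^ k' := WI_perfHull_pow_le p ω q (te_mem_WI p hwP)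
  have h2 : teichmuller p w ∈ TS p y ^ K1 := WI_perfHull_pow_le p y _ (te_mem_WI p hwY)
  have hmapP : P1.map ψ = (TS p ω).map π := by
    rw [hP1, TS, Ideal.map_span, Ideal.map_span, ← Set.range_comp, ← Set.range_comp]
    congr 2
    funext i
    exact hω i
  have hmapY : Y1.map ψ = (TS p y).map π := by
    rw [hY1, TS, Ideal.map_span, Ideal.map_span, ← Set.range_comp, ← Set.range_comp]
    congr 2
    funext i
    exact hy i
  have h3 : π (teichmuller p w) ∈ (P1 ^ k' ⊔ Ideal.span {(p : A1) ^ ν}).map ψ := by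
    refine Ideal.map_mono (le_sup_left : P1 ^ k' ≤ _) ?_
    rw [Ideal.map_pow, hmapP, ← Ideal.map_pow]
    exact Ideal.mem_map_of_mem π h1
  have h4 : π (teichmuller p w) ∈ (Y1 ^ K1 ⊔ Ideal.span {(p : A1) ^ ν}).map ψ := by
    refine Ideal.map_mono (le_sup_left : Y1 ^ K1 ≤ _) ?_
    rw [Ideal.map_pow, hmapY, ← Ideal.map_pow]
    exact Ideal.mem_map_of_mem π h2
  have h5 := HF _ _ (Ideal.mem_sup_right (Ideal.mem_span_singleton_self _))
    (Ideal.mem_sup_right (Ideal.mem_span_singleton_self _)) _ h3 h4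
  have h6 : (P1 ^ k' ⊔ Ideal.span {(p : A1) ^ ν}) ⊓ (Y1 ^ K1 ⊔ Ideal.span {(p : A1) ^ ν}) ≤
      Y1 ^ l * P1 ^ k' ⊔ Ideal.span {(p : A1) ^ ν} := by
    rintro z ⟨hz1, hz2⟩
    have hpY : Ideal.span {(p : A1) ^ ν} ≤ Y1 ^ K1 := by
      rw [Ideal.span_singleton_le_iff_mem]
      exact Ideal.pow_le_pow_right (by omega) (Ideal.pow_mem_pow hp1 ν)
    obtain ⟨a, ha, b, hb, rfl⟩ := Submodule.mem_sup.1 hz1
    have h7 : a + b ∈ Y1 ^ K1 := (sup_le le_rfl hpY) hz2
    have h8 : a ∈ Y1 ^ K1 := by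
      have := sub_mem h7 (hpY hb)
      rwa [add_sub_cancel_right] at this
    exact Submodule.add_mem_sup (hc _ _ _ h8 ha) hb
  have h7 : π (teichmuller p (γ * w)) ∈ (TS p y ^ l * TS p ω ^ k').map π := by
    have h8 := Ideal.map_mono (f := ψ) h6 h5
    rw [Ideal.map_sup, Ideal.map_span, Set.image_singleton, map_pow, map_natCast, hpν,
      Ideal.span_singleton_eq_bot.2 rfl, sup_bot_eq, Ideal.map_mul, Ideal.map_pow, Ideal.map_pow,
      hmapP, hmapY, ← Ideal.map_pow, ← Ideal.map_pow, ← Ideal.map_mul] at h8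
    rwa [map_mul (teichmuller p), map_mul π]
  obtain ⟨s, hs, hse⟩ := (Ideal.mem_map_iff_of_surjective π hπ).1 h7
  have hsK : s ∈ WI p (perfHull p (P ^ k' * Y ^ l)) := TS_mul_le p ω y k' l hs
  have hN' : IsPerf p (perfHull p (P ^ k')) := isPerf_perfHull p _
  have hKK : IsPerf p (perfHull p (P ^ k' * Y ^ l)) := isPerf_perfHull p _
  have hKN : perfHull p (P ^ k' * Y ^ l) ≤ perfHull p (P ^ k') :=
    perfHull_mono Ideal.mul_le_left
  have hwN : γ * w ∈ perfHull p (P ^ k') :=
    Ideal.mul_mem_left _ _ (perfHull_mono (Ideal.pow_le_pow_right (Nat.sub_le _ _)) hwP)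
  have hτ : teichmuller p (γ * w) - s ∈ WI p (perfHull p (P ^ k')) :=
    sub_mem (te_mem_WI p hwN) (WI_mono p hKN hsK)
  obtain ⟨v, w', hτe⟩ := hker (teichmuller p (γ * w) - s) (by rw [map_sub, hse, sub_self])
  obtain ⟨I, rfl⟩ : ∃ I, ν = I + 1 := by
    refine ⟨ν - 1, ?_⟩
    have : 1 ≤ (K + c + 1) * q := Nat.mul_pos (by omega) hpf
    omega
  have hgk : ∀ j, g ^ j ∈ perfHull p (P ^ j) := by
    intro j
    have := prod_mem_perfHull_pow (p := p) (P := P) (fun _ : Fin j => g) fun _ => hg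
    simpa using this
  have hle : l ≤ (K + c + 1) * q := by omega
  obtain ⟨v', hv', u', hu', hτ'⟩ := te_mul_mem p hN' ht hτ I hτe (hgk k') k m l hm
    ((Nat.mul_le_mul_right _ hle).trans hθ)
  have htl : t ^ l ∈ Y ^ l := Ideal.pow_mem_pow hty l
  have htN : ∀ z ∈ perfHull p (P ^ k'), t ^ l * z ∈ perfHull p (P ^ k' * Y ^ l) := by
    intro z hz
    have := mul_mem_perfHull hz (le_perfHull (p := p) htl)
    rwa [mul_comm z] at this
  have hTE : rt p k ((g ^ k') ^ m) * (γ * w) ∈ perfHull p (P ^ k' * Y ^ l) := by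
    refine te_lemma p hN' hKK l htN (Ideal.mul_mem_left _ _ hwN) ?_
    have hgeom : (∑ j ∈ Finset.range l, (p : WittVector p C) ^ j *
        teichmuller p t ^ (l - 1 - j)) * ((p : WittVector p C) - teichmuller p t) =
        (p : WittVector p C) ^ l - teichmuller p t ^ l :=
      Commute.geom_sum₂_mul (Commute.all (p : WittVector p C) (teichmuller p t)) l
    refine ⟨teichmuller p (rt p k ((g ^ k') ^ m)) * s + teichmuller p (t ^ l) * u',
      add_mem (Ideal.mul_mem_left _ _ hsK) (te_mul_mem_WI p hN' htN hu'),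
      v' + (∑ j ∈ Finset.range l, (p : WittVector p C) ^ j *
        teichmuller p t ^ (l - 1 - j)) * u', add_mem hv' (Ideal.mul_mem_left _ _ hu'), ?_⟩
    rw [map_mul, map_pow (teichmuller p) t]
    linear_combination hτ' + (-u') * hgeom
  -- roots
  rw [← pow_mem_perfHull_iff (e := f)]
  have e1 : (rt p k (g ^ m) * rt p f (γ * g ^ N) * x) ^ p ^ f =
      rt p k ((g ^ k') ^ m) * (γ * w) * (g ^ N * rt p k (g ^ m) ^ N) := by
    have e3 : rt p k ((g ^ k') ^ m) = rt p k (g ^ m) ^ k' := by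
      rw [← pow_mul, mul_comm k' m, pow_mul]
      exact map_pow (iterateFrobeniusEquiv C p k).symm (g ^ m) k'
    rw [e3, mul_pow, mul_pow, rt_pow]
    have e4 : rt p k (g ^ m) ^ p ^ f = rt p k (g ^ m) ^ k' * rt p k (g ^ m) ^ N := by
      rw [← pow_add]
      congr 1
      omega
    rw [e4]
    ring
  rw [e1]
  have h9 : rt p k ((g ^ k') ^ m) * (γ * w) * (g ^ N * rt p k (g ^ m) ^ N) ∈
      perfHull p (P ^ k' * Y ^ l * P ^ N) :=
    mul_mem_perfHull hTE (Ideal.mul_mem_right _ _ (hgk N))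
  refine perfHull_mono ?_ h9
  rw [mul_pow, ← pow_mul, mul_right_comm, ← pow_add]
  have e2 : k' + N = p ^ f := by omega
  rw [e2]
  exact Ideal.mul_mono le_rfl (Ideal.pow_le_pow_right hlK)

end main

end Vale.Agent.P177.AR
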