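import Mathlib

/-!
# P177, block (AR-a): intersections of extended ideals, abstract form

`B` is a `Λ`-algebra such that tensoring with `B` preserves injections of `Λ`-modules killed by
`c ∈ Λ` (for `c = p^N`, `B = B/p^N` this is `P202.Mix.lTensor_BN_injective`).
Then `a(A ⊗ B) ∩ b(A ⊗ B) = (a ∩ b)(A ⊗ B)` for ideals `a, b` of a `Λ`-algebra `A` that contain
`c`, and, if `A` is generated by roots `T_j` of the polynomials `F_j` and `Ψ : A → B` is a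
homomorphism of `Λ`-algebras, `∏ F_j'(Ψ(T_j))` maps `Ψ(a)B ∩ Ψ(b)B` into `Ψ(a ∩ b)B`.
-/

set_option linter.all false

namespace Vale.Agent.P177.AR

open TensorProduct Polynomial

universe u

/-- tensoring with `B` preserves injections of `Λ`-modules killed by `c`. -/
def FlatC (Λ B : Type u) [CommRing Λ] [CommRing B] [Algebra Λ B] (c : Λ) : Prop :=
  ∀ (M M' : Type u) [AddCommGroup M] [Module Λ M] [AddCommGroup M'] [Module Λ M']
    (f : M →ₗ[Λ] M'), Function.Injective f → (∀ m : M', c • m = 0) →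
    Function.Injective (f.rTensor B)

section

variable {Λ : Type u} [CommRing Λ] {A B : Type u} [CommRing A] [Algebra Λ A]
  [CommRing B] [Algebra Λ B]

/-- the homomorphism `A → A ⊗ B`. -/
noncomputable abbrev iL (Λ A B : Type u) [CommRing Λ] [CommRing A] [Algebra Λ A]
    [CommRing B] [Algebra Λ B] : A →ₐ[Λ] A ⊗[Λ] B :=
  Algebra.TensorProduct.includeLeft

theorem mem_map_iL (a : Ideal A) (x : A ⊗[Λ] B) :
    x ∈ a.map (iL Λ A B) ↔ ((Ideal.Quotient.mkₐ Λ a).toLinearMap).rTensor B x = 0 := by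
  have h := Algebra.TensorProduct.rTensor_ker (R := Λ) (S := Λ) (A := A) (B := A ⧸ a) (C := B)
    (Ideal.Quotient.mkₐ Λ a) (Ideal.Quotient.mkₐ_surjective Λ a)
  have h2 : RingHom.ker (Ideal.Quotient.mkₐ Λ a) = a := Ideal.Quotient.mkₐ_ker Λ a
  rw [h2] at h
  rw [iL, ← h, RingHom.mem_ker]
  rfl

/-- **intersections of extended ideals.** -/
theorem map_inf_map_le {c : Λ} (hB : FlatC Λ B c) (a b : Ideal A)
    (ha : algebraMap Λ A c ∈ a) (hb : algebraMap Λ A c ∈ b) :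
    a.map (iL Λ A B) ⊓ b.map (iL Λ A B) ≤ (a ⊓ b).map (iL Λ A B) := by
  rintro x ⟨h1, h2⟩
  rw [SetLike.mem_coe, mem_map_iL] at h1 h2
  rw [mem_map_iL]
  -- `A/(a ∩ b) → A/a × A/b`
  let f1 : (A ⧸ (a ⊓ b)) →ₐ[Λ] A ⧸ a := Ideal.Quotient.factorₐ Λ inf_le_left
  let f2 : (A ⧸ (a ⊓ b)) →ₐ[Λ] A ⧸ b := Ideal.Quotient.factorₐ Λ inf_le_right
  let f : (A ⧸ (a ⊓ b)) →ₗ[Λ] (A ⧸ a) × (A ⧸ b) := f1.toLinearMap.prod f2.toLinearMap
  have hf : Function.Injective f := by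
    rw [← LinearMap.ker_eq_bot, LinearMap.ker_eq_bot']
    intro y hy
    obtain ⟨z, rfl⟩ := Ideal.Quotient.mk_surjective y
    have e1 : Ideal.Quotient.mk a z = 0 := congrArg Prod.fst hy
    have e2 : Ideal.Quotient.mk b z = 0 := congrArg Prod.snd hy
    rw [Ideal.Quotient.eq_zero_iff_mem] at e1 e2 ⊢
    exact ⟨e1, e2⟩
  have hk : ∀ m : (A ⧸ a) × (A ⧸ b), c • m = 0 := by
    rintro ⟨y, z⟩
    obtain ⟨y, rfl⟩ := Ideal.Quotient.mk_surjective y
    obtain ⟨z, rfl⟩ := Ideal.Quotient.mk_surjective z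
    have e1 : c • (Ideal.Quotient.mk a y) = 0 := by
      rw [Algebra.smul_def, IsScalarTower.algebraMap_apply Λ A (A ⧸ a) c]
      rw [Ideal.Quotient.algebraMap_eq, ← map_mul, Ideal.Quotient.eq_zero_iff_mem]
      exact Ideal.mul_mem_right _ _ ha
    have e2 : c • (Ideal.Quotient.mk b z) = 0 := by
      rw [Algebra.smul_def, IsScalarTower.algebraMap_apply Λ A (A ⧸ b) c]
      rw [Ideal.Quotient.algebraMap_eq, ← map_mul, Ideal.Quotient.eq_zero_iff_mem]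
      exact Ideal.mul_mem_right _ _ hb
    rw [Prod.smul_mk, e1, e2]
    rfl
  have hinj := hB _ _ f hf hk
  apply hinj
  rw [map_zero]
  -- compute through `(A/a × A/b) ⊗ B = A/a ⊗ B × A/b ⊗ B`
  apply (TensorProduct.prodLeft Λ Λ (A ⧸ a) (A ⧸ b) B).injective
  rw [map_zero]
  have key : ∀ x : A ⊗[Λ] B, (TensorProduct.prodLeft Λ Λ (A ⧸ a) (A ⧸ b) B)
      (f.rTensor B (((Ideal.Quotient.mkₐ Λ (a ⊓ b)).toLinearMap).rTensor B x)) =
      (((Ideal.Quotient.mkₐ Λ a).toLinearMap).rTensor B x,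
        ((Ideal.Quotient.mkₐ Λ b).toLinearMap).rTensor B x) := by
    intro x
    induction x with
    | zero => simp only [map_zero]; rfl
    | tmul y z => simp [f, f1, f2]
    | add y z hy hz => simp only [map_add, hy, hz, Prod.mk_add_mk]
  rw [key, h1, h2]
  rfl

end

section

variable {Λ : Type u} [CommRing Λ] {A B : Type u} [CommRing A] [Algebra Λ A]
  [CommRing B] [Algebra Λ B]

/-- the multiplication `A ⊗ B → B` along `Ψ`. -/
noncomputable def muL (Ψ : A →ₐ[Λ] B) : A ⊗[Λ] B →ₐ[Λ] B :=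
  Algebra.TensorProduct.productMap Ψ (AlgHom.id Λ B)

theorem muL_tmul (Ψ : A →ₐ[Λ] B) (x : A) (y : B) : muL Ψ (x ⊗ₜ y) = Ψ x * y := by
  simp [muL]

/-- If `ε` equalises the two embeddings of `A` (the second one along `Ψ`), then `μ(ε)` maps the
intersection of the extensions into the extension of the intersection. -/
theorem mul_mem_of_eps {c : Λ} (hB : FlatC Λ B c) (Ψ : A →ₐ[Λ] B) (ε : A ⊗[Λ] B)
    (hε : ∀ x : A, ε * (1 ⊗ₜ Ψ x) = ε * (x ⊗ₜ 1)) (a b : Ideal A)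
    (ha : algebraMap Λ A c ∈ a) (hb : algebraMap Λ A c ∈ b) (m : B)
    (h1 : m ∈ a.map Ψ) (h2 : m ∈ b.map Ψ) : muL Ψ ε * m ∈ (a ⊓ b).map Ψ := by
  have h : ∀ I : Ideal A, ∀ m : B, m ∈ I.map Ψ → ε * (1 ⊗ₜ m) ∈ I.map (iL Λ A B) := by
    intro I m hm
    refine Submodule.span_induction (p := fun m _ => ε * (1 ⊗ₜ m) ∈ I.map (iL Λ A B))
      ?_ ?_ ?_ ?_ hm
    · rintro _ ⟨x, hx, rfl⟩
      show ε * (1 ⊗ₜ Ψ x) ∈ _
      rw [hε]
      exact Ideal.mul_mem_left _ _ (Ideal.mem_map_of_mem (iL Λ A B) hx)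
    · rw [TensorProduct.tmul_zero, mul_zero]
      exact Ideal.zero_mem _
    · intro y z _ _ hy hz
      rw [TensorProduct.tmul_add, mul_add]
      exact Ideal.add_mem _ hy hz
    · intro r y _ hy
      have e1 : (1 : A) ⊗ₜ[Λ] (r • y) = (1 ⊗ₜ r) * (1 ⊗ₜ y) := by
        rw [Algebra.TensorProduct.tmul_mul_tmul, one_mul, smul_eq_mul]
      rw [e1, mul_left_comm]
      exact Ideal.mul_mem_left _ _ hy
  have h3 := map_inf_map_le hB a b ha hb ⟨h a m h1, h b m h2⟩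
  have h4 : muL Ψ (ε * (1 ⊗ₜ m)) = muL Ψ ε * m := by
    rw [map_mul, muL_tmul, map_one, one_mul]
  rw [← h4]
  have h5 : (a ⊓ b).map (iL Λ A B) ≤ ((a ⊓ b).map Ψ).comap (muL Ψ) := by
    rw [Ideal.map_le_iff_le_comap]
    intro x hx
    show muL Ψ (x ⊗ₜ[Λ] (1 : B)) ∈ (a ⊓ b).map Ψ
    rw [muL_tmul, mul_one]
    exact Ideal.mem_map_of_mem Ψ hx
  exact h5 h3

/-- the element `ε = ∏ G_j(T_j)`. -/
theorem exists_eps {ι : Type*} [Fintype ι] (T : ι → A) (hT : Algebra.adjoin Λ (Set.range T) = ⊤)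
    (F : ι → Λ[X]) (hF : ∀ j, aeval (T j) (F j) = 0) (Ψ : A →ₐ[Λ] B) :
    ∃ ε : A ⊗[Λ] B, (∀ x : A, ε * (1 ⊗ₜ Ψ x) = ε * (x ⊗ₜ 1)) ∧
      muL Ψ ε = Ψ (∏ j, aeval (T j) (derivative (F j))) := by
  classical
  -- the roots in `B` and the cofactors
  have hroot : ∀ j, ((F j).map (algebraMap Λ B)).IsRoot (Ψ (T j)) := by
    intro j
    rw [IsRoot.def, eval_map_algebraMap, aeval_algHom_apply, hF, map_zero]
  have hG : ∀ j, ∃ G : B[X], (F j).map (algebraMap Λ B) = (X - C (Ψ (T j))) * G :=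
    fun j => dvd_iff_isRoot.2 (hroot j)
  choose G hG using hG
  let iR : B →ₐ[Λ] A ⊗[Λ] B := Algebra.TensorProduct.includeRight
  let e : ι → A ⊗[Λ] B := fun j => (G j).eval₂ (iR : B →+* A ⊗[Λ] B) (T j ⊗ₜ 1)
  have he1 : ∀ j, e j * (1 ⊗ₜ Ψ (T j)) = e j * (T j ⊗ₜ 1) := by
    intro j
    have h1 : ((F j).map (algebraMap Λ B)).eval₂ (iR : B →+* A ⊗[Λ] B) (T j ⊗ₜ 1) = 0 := by
      rw [eval₂_map]
      have h2 : ((iR : B →+* A ⊗[Λ] B).comp (algebraMap Λ B)) = algebraMap Λ (A ⊗[Λ] B) := by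
        ext x
        show iR (algebraMap Λ B x) = _
        rw [AlgHom.commutes]
      rw [h2]
      have h3 : eval₂ (algebraMap Λ (A ⊗[Λ] B)) (T j ⊗ₜ 1) (F j) =
          (iL Λ A B) (aeval (T j) (F j)) := by
        rw [← aeval_algHom_apply]
        rfl
      rw [h3, hF, map_zero]
    rw [hG, eval₂_mul, eval₂_sub, eval₂_X, eval₂_C] at h1
    have h4 : (iR : B →+* A ⊗[Λ] B) (Ψ (T j)) = 1 ⊗ₜ Ψ (T j) := rfl
    rw [h4] at h1
    have h5 : (T j ⊗ₜ 1 - 1 ⊗ₜ Ψ (T j)) * e j = 0 := h1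
    linear_combination -h5
  have he2 : ∀ j, muL Ψ (e j) = Ψ (aeval (T j) (derivative (F j))) := by
    intro j
    have h1 : muL Ψ (e j) = (G j).eval (Ψ (T j)) := by
      show (muL Ψ : A ⊗[Λ] B →+* B) (eval₂ (iR : B →+* A ⊗[Λ] B) (T j ⊗ₜ 1) (G j)) = _
      rw [hom_eval₂]
      have h2 : ((muL Ψ : A ⊗[Λ] B →+* B).comp (iR : B →+* A ⊗[Λ] B)) = RingHom.id B := by
        ext x
        show muL Ψ (1 ⊗ₜ x) = x
        rw [muL_tmul, map_one, one_mul]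
      rw [h2]
      have h3 : (muL Ψ : A ⊗[Λ] B →+* B) (T j ⊗ₜ 1) = Ψ (T j) := by
        show muL Ψ (T j ⊗ₜ 1) = _
        rw [muL_tmul, mul_one]
      rw [h3]
      rfl
    rw [h1, ← aeval_algHom_apply, ← eval_map_algebraMap, ← derivative_map, hG]
    simp
  refine ⟨∏ j, e j, ?_, ?_⟩
  · -- the set of the good `x` is a subalgebra
    intro x
    have hx : x ∈ Algebra.adjoin Λ (Set.range T) := by rw [hT]; trivial
    induction hx using Algebra.adjoin_induction with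
    | mem x hx =>
      obtain ⟨j, rfl⟩ := hx
      rw [← Finset.mul_prod_erase _ _ (Finset.mem_univ j)]
      linear_combination (∏ i ∈ Finset.univ.erase j, e i) * he1 j
    | algebraMap r =>
      congr 1
      rw [AlgHom.commutes, Algebra.algebraMap_eq_smul_one, Algebra.algebraMap_eq_smul_one,
        TensorProduct.tmul_smul, TensorProduct.smul_tmul']
    | add x y _ _ hx hy =>
      rw [map_add, TensorProduct.tmul_add, mul_add, hx, hy, ← mul_add, TensorProduct.add_tmul]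
    | mul x y _ _ hx hy =>
      have e1 : (1 : A) ⊗ₜ[Λ] (Ψ (x * y)) = (1 ⊗ₜ Ψ x) * (1 ⊗ₜ Ψ y) := by
        rw [Algebra.TensorProduct.tmul_mul_tmul, one_mul, map_mul]
      have e2 : (x * y) ⊗ₜ[Λ] (1 : B) = (x ⊗ₜ 1) * (y ⊗ₜ 1) := by
        rw [Algebra.TensorProduct.tmul_mul_tmul, one_mul]
      rw [e1, e2]
      linear_combination (1 ⊗ₜ[Λ] Ψ y) * hx + (x ⊗ₜ[Λ] 1) * hy
  · rw [map_prod, map_prod]
    exact Finset.prod_congr rfl fun j _ => he2 j

/-- **the interface (HF).** -/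
theorem psi_inf_gen {c : Λ} (hB : FlatC Λ B c) {ι : Type*} [Fintype ι] (T : ι → A)
    (hT : Algebra.adjoin Λ (Set.range T) = ⊤)
    (F : ι → Λ[X]) (hF : ∀ j, aeval (T j) (F j) = 0) (Ψ : A →ₐ[Λ] B) (a b : Ideal A)
    (ha : algebraMap Λ A c ∈ a) (hb : algebraMap Λ A c ∈ b) (m : B)
    (h1 : m ∈ a.map Ψ) (h2 : m ∈ b.map Ψ) :
    Ψ (∏ j, aeval (T j) (derivative (F j))) * m ∈ (a ⊓ b).map Ψ := by
  obtain ⟨ε, hε, hμ⟩ := exists_eps T hT F hF Ψ
  rw [← hμ]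
  exact mul_mem_of_eps hB Ψ ε hε a b ha hb m h1 h2

end

end Vale.Agent.P177.AR
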