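import Vale.Agent.P202.Mix.FlatBN
import Vale.Agent.P177.AR.PsiInf

/-!
# P177, block (AR-a): the interface (HF) for `B/p^N`
-/

set_option linter.all false

namespace Vale.Agent.P177.AR

open TensorProduct Polynomial Vale.Agent.P202.Mix

universe u

variable {p : ℕ} [Fact p.Prime] {k : Type u} [Field k] [CharP k p] {r : ℕ}
variable {Λ : Type u} [CommRing Λ] {u : Fin r → Λ} {ψ : Λ →+* WittVector p (Rp p k r)}
  {red : Λ →+* R0 k r ⧸ Ideal.span {(MvPowerSeries.X 0 : R0 k r)}}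

/-- tensoring with `B/p^N` preserves injections of modules killed by `p^N`. -/
theorem flatC_BN {r0 : ℕ} (hb : IsBase p k r Λ u ψ red) (d : PExt.{u} p k r r0) (N : ℕ) :
    FlatC Λ (BN ψ d.C N) ((p : Λ) ^ N) := by
  intro M M' _ _ _ _ f hf hM'
  exact lTensor_BN_injective hb d N f hf hM'

/-- **(HF)**: `∏ F_j'(Ψ(T_j))` maps `Ψ(a)B ∩ Ψ(b)B` into `Ψ(a ∩ b)B`, `B = B/p^N`, `p^N ∈ a, b`. -/
theorem psi_inf {r0 : ℕ} (hb : IsBase p k r Λ u ψ red) (d : PExt.{u} p k r r0) (N : ℕ)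
    {A1 : Type u} [CommRing A1] [Algebra Λ A1] {ι : Type*} [Fintype ι] (T : ι → A1)
    (hT : Algebra.adjoin Λ (Set.range T) = ⊤) (F : ι → Λ[X]) (hF : ∀ j, aeval (T j) (F j) = 0)
    (Ψ : A1 →ₐ[Λ] BN ψ d.C N) (I J : Ideal A1) (hI : (p : A1) ^ N ∈ I) (hJ : (p : A1) ^ N ∈ J)
    (m : BN ψ d.C N) (h1 : m ∈ I.map Ψ) (h2 : m ∈ J.map Ψ) :
    Ψ (∏ j, aeval (T j) (derivative (F j))) * m ∈ (I ⊓ J).map Ψ := by
  refine psi_inf_gen (flatC_BN hb d N) T hT F hF Ψ I J ?_ ?_ m h1 h2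
  · rw [map_pow, map_natCast]; exact hI
  · rw [map_pow, map_natCast]; exact hJ

end Vale.Agent.P177.AR
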