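import Mathlib

/-!
# P177, ARGLUE: products of powers of ideals generated by variables are monomial, universally
-/

set_option linter.all false

namespace Vale.Agent.P177.AR

open scoped Pointwise

universe u

/-- the monomial with exponent `e`. -/
def mon {C : Type*} [CommRing C] {s : ℕ} (c : Fin s → C) (e : Fin s → ℕ) : C := ∏ j, c j ^ e j

theorem mon_add {C : Type*} [CommRing C] {s : ℕ} (c : Fin s → C) (e e' : Fin s → ℕ) :
    mon c (e + e') = mon c e * mon c e' := by
  unfold mon
  rw [← Finset.prod_mul_distrib]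
  exact Finset.prod_congr rfl fun j _ => by rw [Pi.add_apply, pow_add]

theorem mon_zero {C : Type*} [CommRing C] {s : ℕ} (c : Fin s → C) : mon c 0 = 1 := by
  simp [mon]

theorem mon_single {C : Type*} [CommRing C] {s : ℕ} (c : Fin s → C) (j : Fin s) :
    mon c (Pi.single j 1) = c j := by
  classical
  unfold mon
  rw [Finset.prod_eq_single j]
  · simp
  · intro i _ hi
    rw [Pi.single_eq_of_ne hi, pow_zero]
  · intro h
    exact absurd (Finset.mem_univ _) h

/-- universal monomial ideals. -/
def MonoGen {s : ℕ} (P : ∀ (C : Type u) [CommRing C], (Fin s → C) → Ideal C) : Prop :=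
  ∃ S : Set (Fin s → ℕ), S.Finite ∧ ∀ (C : Type u) [CommRing C] (c : Fin s → C),
    P C c = Ideal.span (mon c '' S)

theorem MonoGen.mul {s : ℕ} {P Q : ∀ (C : Type u) [CommRing C], (Fin s → C) → Ideal C}
    (hP : MonoGen P) (hQ : MonoGen Q) : MonoGen (fun C _ c => P C c * Q C c) := by
  obtain ⟨S, hS, h1⟩ := hP
  obtain ⟨T, hT, h2⟩ := hQ
  refine ⟨S + T, hS.add hT, fun C _ c => ?_⟩
  show P C c * Q C c = _
  rw [h1, h2, Ideal.span_mul_span']
  congr 1
  ext x
  constructor
  · rintro ⟨_, ⟨e, he, rfl⟩, _, ⟨e', he', rfl⟩, rfl⟩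
    exact ⟨e + e', Set.add_mem_add he he', mon_add c e e'⟩
  · rintro ⟨_, ⟨e, he, e', he', rfl⟩, rfl⟩
    exact ⟨_, ⟨e, he, rfl⟩, _, ⟨e', he', rfl⟩, (mon_add c e e').symm⟩

theorem MonoGen.one {s : ℕ} : MonoGen (fun (C : Type u) [CommRing C] (_ : Fin s → C) =>
    (1 : Ideal C)) := by
  refine ⟨{0}, Set.finite_singleton _, fun C _ c => ?_⟩
  show (1 : Ideal C) = _
  rw [Set.image_singleton, mon_zero, Ideal.span_singleton_one, Ideal.one_eq_top]

theorem MonoGen.pow {s : ℕ} {P : ∀ (C : Type u) [CommRing C], (Fin s → C) → Ideal C}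
    (hP : MonoGen P) (n : ℕ) : MonoGen (fun C _ c => P C c ^ n) := by
  induction n with
  | zero => simpa only [pow_zero] using MonoGen.one
  | succ n ih => simpa only [pow_succ] using ih.mul hP

theorem MonoGen.prod {s : ℕ} {ι : Type} (T : Finset ι)
    {P : ι → ∀ (C : Type u) [CommRing C], (Fin s → C) → Ideal C}
    (hP : ∀ i, MonoGen (P i)) : MonoGen (fun C _ c => ∏ i ∈ T, P i C c) := by
  classical
  induction T using Finset.induction_on with
  | empty => simpa only [Finset.prod_empty] using MonoGen.one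
  | insert i T hi ih =>
    simpa only [Finset.prod_insert hi] using (hP i).mul ih

theorem MonoGen.var {s : ℕ} {κ : Type} [Finite κ] (idx : κ → Fin s) :
    MonoGen (fun (C : Type u) [CommRing C] (c : Fin s → C) =>
      Ideal.span (Set.range fun t => c (idx t))) := by
  classical
  refine ⟨Set.range fun t => (Pi.single (idx t) 1 : Fin s → ℕ), Set.finite_range _,
    fun C _ c => ?_⟩
  show Ideal.span (Set.range fun t => c (idx t)) = _
  rw [← Set.range_comp]
  have h : (fun t => c (idx t)) = mon c ∘ fun t => Pi.single (idx t) 1 := by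
    funext t
    exact (mon_single c _).symm
  rw [h]

/-- enumeration of the generators. -/
theorem MonoGen.exists_fin {s : ℕ} {P : ∀ (C : Type u) [CommRing C], (Fin s → C) → Ideal C}
    (hP : MonoGen P) : ∃ (m : ℕ) (ee : Fin m → Fin s → ℕ),
      ∀ (C : Type u) [CommRing C] (c : Fin s → C),
        P C c = Ideal.span (Set.range fun l => mon c (ee l)) := by
  obtain ⟨S, hS, h⟩ := hP
  obtain ⟨m, ee, hee⟩ := hS.fin_param
  refine ⟨m, ee, fun C _ c => ?_⟩
  rw [h, ← hee.2, ← Set.range_comp]
  rfl

/-- products of powers of ideals generated by variables. -/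
theorem exists_mono_gen {s R : ℕ} {κ : Fin R → Type} [∀ i, Finite (κ i)]
    (idx : ∀ i, κ i → Fin s) (n : Fin R → ℕ) : ∃ (m : ℕ) (ee : Fin m → Fin s → ℕ),
      ∀ (C : Type u) [CommRing C] (c : Fin s → C),
        ∏ i, Ideal.span (Set.range fun t => c (idx i t)) ^ n i =
          Ideal.span (Set.range fun l => mon c (ee l)) :=
  (MonoGen.prod Finset.univ fun i => (MonoGen.var (idx i)).pow (n i)).exists_fin

end Vale.Agent.P177.AR
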