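import Vale.Agent.P177.AR.LvAR
import Vale.Agent.P177.AR.Mono
import Vale.Agent.P177.Lev.Defs

/-!
# P177, ARGLUE: almost Artin-Rees for the levels of block LEV

`J = perfHull (∏ I_i ^ n_i)`, `I_i = (c_(idx i t))_t`, `Y = (t, u_1, .., u_r)`,
`η = Θ^(1/q)`, `q = p ^ j`: `η ^ w (J ∩ perfHull (Y ^ (K + c))) ⊆ perfHull (Y ^ K ∏ I_i ^ n_i)`.
-/

set_option linter.all false

namespace Vale.Agent.P177.AR

open TensorProduct Polynomial WittVector Vale.Agent.P177.PI Vale.Agent.P177.Perf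
  Vale.Agent.P202.Mix Vale.Agent.P177.Lev
open scoped ENNReal

universe u

section rt

variable {p : ℕ} [hp : Fact p.Prime] {C : Type*} [CommRing C] [CharP C p] [PerfectRing C p]

theorem rt_mul' (e : ℕ) (a b : C) : PI.rt p e (a * b) = PI.rt p e a * PI.rt p e b :=
  map_mul (iterateFrobeniusEquiv C p e).symm a b

theorem rt_pow' (e : ℕ) (a : C) (n : ℕ) : PI.rt p e (a ^ n) = PI.rt p e a ^ n :=
  map_pow (iterateFrobeniusEquiv C p e).symm a n

theorem rt_dvd (e : ℕ) {a b : C} (h : a ∣ b) : PI.rt p e a ∣ PI.rt p e b := by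
  obtain ⟨c, rfl⟩ := h
  exact ⟨_, rt_mul' e a c⟩

end rt

variable {p : ℕ} [Fact p.Prime] {k : Type u} [Field k] [CharP k p] {r : ℕ}
variable {Λ : Type u} [CommRing Λ] {u : Fin r → Λ} {ψ : Λ →+* WittVector p (Rp p k r)}
  {red : Λ →+* R0 k r ⧸ Ideal.span {(MvPowerSeries.X 0 : R0 k r)}}

theorem xiM_eq (C : Type u) [CommRing C] [Algebra (Rp p k r) C] (M : ℕ) :
    xiM p k r C M = XI p (tC p k r C) M := by
  rw [xiM, XI, ← Ideal.span_union, Set.singleton_union]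

theorem piN_laW (C : Type u) [CommRing C] [Algebra (Rp p k r) C] (N : ℕ) (l : Λ) :
    piN ψ C N (laW ψ C l) = algebraMap Λ (BN ψ C N) l := rfl

theorem piN_comp_laW (C : Type u) [CommRing C] [Algebra (Rp p k r) C] (N : ℕ) :
    (piN ψ C N).comp (laW ψ C) = algebraMap Λ (BN ψ C N) := rfl

variable [IsLocalRing Λ] {Ω : Type u} [Field Ω] [Algebra Λ Ω] {s : ℕ} {b : Fin s → Ω}
  {F G : Fin s → Λ[X]} {D : ℕ} {ε : ℝ≥0∞} {Φ : ℕ → ℕ}

/-- the homomorphism `Λ[T]/(G_j(T_j)) → B/p^(I+1)` of a level. -/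
noncomputable def PsiL {e : ℕ} (lv : Level.{u} ψ b F G D ε Φ e) :
    FA G →ₐ[Λ] BN ψ lv.ext.C (lv.I + 1) :=
  Ideal.Quotient.liftₐ _ (MvPolynomial.aeval fun j => teN ψ lv.ext.C (lv.I + 1) (lv.c j)) (by
    intro a ha
    have h : Ideal.span (Set.range fun j => Polynomial.toMvPolynomial j (G j)) ≤
        RingHom.ker (MvPolynomial.aeval fun j => teN ψ lv.ext.C (lv.I + 1) (lv.c j) :
          MvPolynomial (Fin s) Λ →ₐ[Λ] BN ψ lv.ext.C (lv.I + 1)) := by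
      rw [Ideal.span_le]
      rintro _ ⟨j, rfl⟩
      rw [SetLike.mem_coe, RingHom.mem_ker]
      refine (aeval_toMv _ j (G j)).trans ?_
      have h1 := lv.relG j
      rw [xiM_eq, ← ker_piN ψ, RingHom.mem_ker, hom_eval₂, piN_comp_laW] at h1
      rw [aeval_def]
      exact h1
    exact h ha)

theorem PsiL_mk {e : ℕ} (lv : Level.{u} ψ b F G D ε Φ e) (f : MvPolynomial (Fin s) Λ) :
    PsiL lv (mkF G f) =
      MvPolynomial.aeval (fun j => teN ψ lv.ext.C (lv.I + 1) (lv.c j)) f := rfl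

theorem PsiL_mX {e : ℕ} (lv : Level.{u} ψ b F G D ε Φ e) (ee : Fin s → ℕ) :
    PsiL lv (mkF G (mX ee)) = piN ψ lv.ext.C (lv.I + 1) (teichmuller p (mon lv.c ee)) := by
  rw [PsiL_mk, mX, mon]
  simp only [map_prod, map_pow, MvPolynomial.aeval_X]
  rfl

/-- **Almost Artin-Rees for the levels.** `c`, `w` depend only on `G` and the exponents. -/
theorem exists_lev_ar [IsNoetherianRing Λ] (hb : IsBase p k r Λ u ψ red) (b : Fin s → Ω)
    (F G : Fin s → Λ[X]) (D : ℕ) (ε : ℝ≥0∞) (Φ : ℕ → ℕ) (hΦ : ∀ j, j * (p ^ j * p ^ j) ≤ Φ j)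
    {R : ℕ} {κ : Fin R → Type} [∀ i, Finite (κ i)] (idx : ∀ i, κ i → Fin s)
    (hidx : ∀ i, ∃ t, b (idx i t) ≠ 0) (n : Fin R → ℕ) :
    ∃ w c : ℕ, ∀ K : ℕ, ∃ e1 : ℕ, ∀ e, e1 ≤ e → ∀ (lv : Level.{u} ψ b F G D ε Φ e)
      (x : lv.ext.C),
      x ∈ perfHull p (∏ i, Ideal.span (Set.range fun t => lv.c (idx i t)) ^ n i) →
      x ∈ perfHull p (Ideal.span (Set.range (xC p k r lv.ext.C)) ^ (K + c)) →
      PI.rt p lv.j lv.Θ ^ w * x ∈ perfHull p (Ideal.span (Set.range (xC p k r lv.ext.C)) ^ K *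
        ∏ i, Ideal.span (Set.range fun t => lv.c (idx i t)) ^ n i) := by
  obtain ⟨m, ee, hee⟩ := exists_mono_gen.{u} idx n
  obtain ⟨c, hc⟩ := exists_linear_one
    (Ideal.span (Set.range fun l => mkF G (mX (ee l))))
    (Ideal.span (Set.range (Fin.cons (p : FA G) fun i => algebraMap Λ (FA G) (u i) :
      Fin (r + 1) → FA G)))
  choose t0 ht0 using hidx
  refine ⟨(∑ i, n i) * (m + 1) + 1, c + (r + 1), fun K => ⟨m + K + c + (r + 1), ?_⟩⟩
  intro e he lv x hx hx'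
  rw [hee] at hx ⊢
  rw [← add_assoc] at hx'
  have hj : m + K + c + (r + 1) ≤ lv.j := he.trans lv.le_j
  have hp1 : 1 < p := (Fact.out : p.Prime).one_lt
  have hjp : lv.j ≤ p ^ lv.j := (Nat.lt_pow_self hp1).le
  have hq1 : 1 ≤ p ^ lv.j := Nat.one_le_pow _ _ (by omega)
  have hI : lv.j * (p ^ lv.j * p ^ lv.j) ≤ lv.I := (hΦ _).trans lv.le_I
  have h1 : K * p ^ lv.j * p ^ lv.j ≤ lv.I + 1 := by
    have h3 : K * (p ^ lv.j * p ^ lv.j) ≤ lv.j * (p ^ lv.j * p ^ lv.j) :=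
      Nat.mul_le_mul_right _ (by omega)
    rw [mul_assoc]
    omega
  have h2 : (K + c + (r + 1)) * p ^ lv.j ≤ lv.I + 1 := by
    have h3 : (K + c + (r + 1)) * p ^ lv.j ≤ lv.j * (p ^ lv.j * p ^ lv.j) := by
      refine Nat.mul_le_mul (by omega) ?_
      exact Nat.le_mul_of_pos_left _ (by omega)
    omega
  -- the multiplier
  set g' : lv.ext.C := ∏ i, lv.c (idx i (t0 i)) ^ n i with hg'
  have hg'mem : g' ∈ Ideal.span (Set.range fun l => mon lv.c (ee l)) := by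
    rw [← hee, hg']
    refine Ideal.prod_mem_prod fun i _ => Ideal.pow_mem_pow ?_ _
    exact Ideal.subset_span (Set.mem_range_self (t0 i))
  have hg'dvd : g' ∣ lv.Θ ^ (∑ i, n i) := by
    rw [hg', ← Finset.prod_pow_eq_pow_sum]
    exact Finset.prod_dvd_prod_of_dvd _ _ fun i _ => pow_dvd_pow_of_dvd (lv.dvd _ (ht0 i)) _
  have key := almost_ar p (A := FA G) (B := BN ψ lv.ext.C (lv.I + 1))
    (fun l => mon lv.c (ee l)) (xC p k r lv.ext.C)
    (tC p k r lv.ext.C) (tC_mem_nonZeroDivisors lv.ext) (Ideal.subset_span ⟨0, rfl⟩) (lv.I + 1)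
    (piN ψ lv.ext.C (lv.I + 1)) (piN_surjective ψ lv.ext.C (lv.I + 1))
    (ker_piN ψ lv.ext.C (lv.I + 1))
    (flatC_BN hb lv.ext (lv.I + 1)) (fun j => mkF G (MvPolynomial.X j)) (adjoin_mkF G) G
    (mkF_root G) (PsiL lv) (fun l => mkF G (mX (ee l)))
    (fun l => PsiL_mX lv (ee l))
    (Fin.cons (p : FA G) fun i => algebraMap Λ (FA G) (u i)) ?_ ?_
    lv.Θ ?_ g' hg'mem c hc K lv.j (by omega) h1 h2 hx hx'
  · -- from the multiplier of `almost_ar` to `η ^ w`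
    have hd : PI.rt p lv.j g' ^ (m + 1) * PI.rt p lv.j lv.Θ ∣
        PI.rt p lv.j lv.Θ ^ ((∑ i, n i) * (m + 1) + 1) := by
      rw [pow_succ (PI.rt p lv.j lv.Θ), pow_mul (PI.rt p lv.j lv.Θ)]
      refine mul_dvd_mul (pow_dvd_pow_of_dvd ?_ _) dvd_rfl
      rw [← rt_pow']
      exact rt_dvd _ hg'dvd
    obtain ⟨z, hz⟩ := hd
    rw [hz, mul_comm _ z, mul_assoc z]
    exact Ideal.mul_mem_left _ _ key
  · intro i
    refine Fin.cases ?_ (fun i => ?_) i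
    · rw [Fin.cons_zero, map_natCast]
      have h3 : piN ψ lv.ext.C (lv.I + 1) ((p : WittVector p lv.ext.C) -
          teichmuller p (tC p k r lv.ext.C)) = 0 := by
        rw [← RingHom.mem_ker, ker_piN]
        exact (mem_XI p).2 ⟨1, 0, by ring⟩
      rw [map_sub, map_natCast, sub_eq_zero] at h3
      exact h3
    · rw [Fin.cons_succ, AlgHom.commutes]
      change mkN ψ lv.ext.C (lv.I + 1) (laB ψ lv.ext.C (u i)) = _
      rw [laB_u hb]
      rfl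
  · exact Ideal.subset_span ⟨0, rfl⟩
  · -- `[Θ] ∈ (Ψ(∏ G_j'))`
    have h3 := lv.disc
    rw [xiM_eq, ← ker_piN ψ, ← Ideal.comap_map_of_surjective' _ (piN_surjective ψ lv.ext.C _),
      Ideal.mem_comap, Ideal.map_span, Set.image_singleton, map_prod] at h3
    have h4 : PsiL lv (∏ j, aeval (mkF G (MvPolynomial.X j)) (derivative (G j))) =
        ∏ l, piN ψ lv.ext.C (lv.I + 1) (Polynomial.eval₂ (laW ψ lv.ext.C)
          (teichmuller p (lv.c l)) (derivative (G l))) := by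
      rw [map_prod]
      refine Finset.prod_congr rfl fun l _ => ?_
      rw [hom_eval₂, piN_comp_laW, ← aeval_algHom_apply, ← aeval_def]
      congr 1
      rw [PsiL_mk, MvPolynomial.aeval_X]
      rfl
    rw [h4]
    exact h3

/-- the same on a product of levels: all statements are componentwise. -/
theorem exists_pi_ar [IsNoetherianRing Λ] (hb : IsBase p k r Λ u ψ red) (b : Fin s → Ω)
    (F G : Fin s → Λ[X]) (D : ℕ) (ε : ℝ≥0∞) (Φ : ℕ → ℕ) (hΦ : ∀ j, j * (p ^ j * p ^ j) ≤ Φ j)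
    {R : ℕ} {κ : Fin R → Type} [∀ i, Finite (κ i)] (idx : ∀ i, κ i → Fin s)
    (hidx : ∀ i, ∃ t, b (idx i t) ≠ 0) (n : Fin R → ℕ) :
    ∃ w c : ℕ, ∀ K : ℕ, ∃ e1 : ℕ, ∀ {ι : Type*} (E : ι → ℕ) (_ : ∀ e, e1 ≤ E e)
      (lv : ∀ e : ι, Level.{u} ψ b F G D ε Φ (E e)) (x : ∀ e, (lv e).ext.C),
      (∀ e, x e ∈ perfHull p (∏ i, Ideal.span (Set.range fun t => (lv e).c (idx i t)) ^ n i)) →
      (∀ e, x e ∈ perfHull p (Ideal.span (Set.range (xC p k r (lv e).ext.C)) ^ (K + c))) →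
      ∀ e, (((fun e => PI.rt p (lv e).j (lv e).Θ) : ∀ e, (lv e).ext.C) ^ w * x) e ∈
        perfHull p (Ideal.span (Set.range (xC p k r (lv e).ext.C)) ^ K *
          ∏ i, Ideal.span (Set.range fun t => (lv e).c (idx i t)) ^ n i) := by
  obtain ⟨w, c, h⟩ := exists_lev_ar hb b F G D ε Φ hΦ idx hidx n
  refine ⟨w, c, fun K => ?_⟩
  obtain ⟨e1, h1⟩ := h K
  exact ⟨e1, fun E hE lv x hx hx' e => h1 (E e) (hE e) (lv e) (x e) (hx e) (hx' e)⟩

end Vale.Agent.P177.AR
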