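import Mathlib

/-!
The linear Artin-Rees lemma for products of powers of several ideals.
-/

namespace Vale.Agent.P177.AR

open MvPolynomial

variable {R : Type*} [CommRing R] {ι : Type*} [Fintype ι]

/-- the product of the powers `I i ^ k i`. -/
def ipow (I : ι → Ideal R) (k : ι →₀ ℕ) : Ideal R := ∏ i, I i ^ k i

theorem ipow_zero (I : ι → Ideal R) : ipow I 0 = ⊤ := by
  simp [ipow, Ideal.one_eq_top]

theorem ipow_add (I : ι → Ideal R) (k l : ι →₀ ℕ) : ipow I (k + l) = ipow I k * ipow I l := by
  simp [ipow, pow_add, Finset.prod_mul_distrib]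

theorem ipow_single [DecidableEq ι] (I : ι → Ideal R) (i : ι) (n : ℕ) :
    ipow I (Finsupp.single i n) = I i ^ n := by
  rw [ipow, Finset.prod_eq_single i]
  · simp
  · intro j _ hj
    rw [Finsupp.single_eq_of_ne hj, pow_zero]
  · simp

theorem ipow_antitone (I : ι → Ideal R) {k l : ι →₀ ℕ} (h : k ≤ l) : ipow I l ≤ ipow I k := by
  obtain ⟨m, rfl⟩ := exists_add_of_le h
  rw [ipow_add]
  exact Ideal.mul_le_left (I := ipow I k) (J := ipow I m)

/-- the multi-Rees algebra. -/
def mRees (I : ι → Ideal R) : Subalgebra R (MvPolynomial ι R) where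
  carrier := {f | ∀ k, coeff k f ∈ ipow I k}
  mul_mem' := by
    classical
    intro f g hf hg k
    rw [coeff_mul]
    refine Ideal.sum_mem _ fun x hx => ?_
    rw [Finset.HasAntidiagonal.mem_antidiagonal] at hx
    rw [← hx, ipow_add]
    exact Ideal.mul_mem_mul (hf _) (hg _)
  add_mem' := by
    intro f g hf hg k
    rw [coeff_add]
    exact Ideal.add_mem _ (hf k) (hg k)
  algebraMap_mem' := by
    classical
    intro r k
    rw [algebraMap_eq, coeff_C]
    split_ifs with h
    · rw [← h, ipow_zero]; exact Submodule.mem_top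
    · exact Ideal.zero_mem _

theorem mem_mRees (I : ι → Ideal R) {f : MvPolynomial ι R} :
    f ∈ mRees I ↔ ∀ k, coeff k f ∈ ipow I k := Iff.rfl

theorem monomial_mem_mRees (I : ι → Ideal R) {k : ι →₀ ℕ} {a : R} (h : a ∈ ipow I k) :
    monomial k a ∈ mRees I := by
  classical
  intro l
  rw [coeff_monomial]
  split_ifs with h1
  · rwa [← h1]
  · exact Ideal.zero_mem _

theorem mRees_fg [IsNoetherianRing R] (I : ι → Ideal R) : (mRees I).FG := by
  classical
  have hfg : ∀ i, ∃ s : Finset R, Ideal.span (s : Set R) = I i := fun i =>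
    (isNoetherianRing_iff_ideal_fg R).1 inferInstance (I i)
  choose s hs using hfg
  let G : Finset (MvPolynomial ι R) :=
    Finset.univ.biUnion fun i => (s i).image fun a => monomial (Finsupp.single i 1) a
  refine ⟨G, ?_⟩
  set A := Algebra.adjoin R (G : Set (MvPolynomial ι R)) with hA
  -- the ideals of coefficients
  let q : (ι →₀ ℕ) → Ideal R := fun k =>
    { carrier := {a | monomial k a ∈ A}
      add_mem' := by
        intro a b ha hb
        change monomial k (a + b) ∈ A
        rw [map_add]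
        exact add_mem ha hb
      zero_mem' := by
        change monomial k 0 ∈ A
        rw [map_zero]
        exact zero_mem _
      smul_mem' := by
        intro c a ha
        change monomial k (c • a) ∈ A
        rw [map_smul]
        exact Subalgebra.smul_mem _ ha c }
  have hq0 : q 0 = ⊤ := by
    rw [Ideal.eq_top_iff_one]
    change monomial 0 1 ∈ A
    exact one_mem _
  have hqmul : ∀ k l, q k * q l ≤ q (k + l) := by
    intro k l
    rw [Ideal.mul_le]
    intro a ha b hb
    change monomial (k + l) (a * b) ∈ A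
    rw [← monomial_mul]
    exact mul_mem ha hb
  have hq1 : ∀ i, I i ≤ q (Finsupp.single i 1) := by
    intro i
    rw [← hs i, Ideal.span_le]
    intro a ha
    change monomial (Finsupp.single i 1) a ∈ A
    refine Algebra.subset_adjoin ?_
    simp only [G, Finset.coe_biUnion, Set.mem_iUnion, Finset.coe_image]
    exact ⟨i, Finset.mem_univ i, a, ha, rfl⟩
  have hqpow : ∀ i n, I i ^ n ≤ q (Finsupp.single i n) := by
    intro i n
    induction n with
    | zero => rw [Finsupp.single_zero, hq0]; exact le_top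
    | succ n ih =>
      rw [pow_succ, Finsupp.single_add]
      exact (Ideal.mul_mono ih (hq1 i)).trans (hqmul _ _)
  have hqprod : ∀ (t : Finset ι) (k : ι →₀ ℕ), ∏ i ∈ t, I i ^ k i ≤
      q (∑ i ∈ t, Finsupp.single i (k i)) := by
    intro t k
    induction t using Finset.induction_on with
    | empty => simp [hq0]
    | insert i t hi ih =>
      rw [Finset.prod_insert hi, Finset.sum_insert hi]
      exact (Ideal.mul_mono (hqpow i _) ih).trans (hqmul _ _)
  apply le_antisymm
  · rw [hA, Algebra.adjoin_le_iff]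
    intro f hf
    simp only [G, Finset.coe_biUnion, Set.mem_iUnion, Finset.coe_image] at hf
    obtain ⟨i, -, a, ha, rfl⟩ := hf
    refine monomial_mem_mRees I ?_
    rw [ipow_single, pow_one, ← hs i]
    exact Ideal.subset_span ha
  · intro f hf
    rw [← support_sum_monomial_coeff f]
    refine sum_mem fun k _ => ?_
    have h1 := hqprod Finset.univ k
    have h2 : ∑ i, Finsupp.single i (k i) = k := by
      ext j
      simp
    rw [h2] at h1
    exact h1 (hf k)

instance [IsNoetherianRing R] (I : ι → Ideal R) : IsNoetherianRing (mRees I) :=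
  isNoetherianRing_of_fg (mRees_fg I)

/-- the ideal of the multi-Rees algebra with coefficients in `∏ I ^ (k + e)`. -/
def shiftI (I : ι → Ideal R) (e : ι →₀ ℕ) : Ideal (mRees I) where
  carrier := {f | ∀ k, coeff k (f : MvPolynomial ι R) ∈ ipow I (k + e)}
  add_mem' := by
    intro f g hf hg k
    rw [Subalgebra.coe_add, coeff_add]
    exact Ideal.add_mem _ (hf k) (hg k)
  zero_mem' := by
    intro k
    simp
  smul_mem' := by
    classical
    intro f g hg k
    rw [smul_eq_mul, Subalgebra.coe_mul, coeff_mul]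
    refine Ideal.sum_mem _ fun x hx => ?_
    rw [Finset.HasAntidiagonal.mem_antidiagonal] at hx
    rw [← hx, add_assoc, ipow_add]
    exact Ideal.mul_mem_mul (f.2 _) (hg _)

/-- coefficients of elements of the extended ideal. -/
theorem coeff_mem_of_mem_map_pow (I : ι → Ideal R) (m : Ideal R) (e : ι →₀ ℕ) (n : ℕ)
    (E : Ideal (mRees I)) (hE : E ≤ shiftI I e) {f : mRees I}
    (hf : f ∈ (m.map (algebraMap R (mRees I))) ^ n • E) (k : ι →₀ ℕ) :
    coeff k (f : MvPolynomial ι R) ∈ m ^ n * ipow I (k + e) := by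
  rw [← Ideal.map_pow] at hf
  refine Submodule.smul_induction_on hf ?_ ?_
  · intro a ha g hg
    -- `a` in the extended ideal
    have h1 : ∀ k, coeff k (a : MvPolynomial ι R) ∈ m ^ n * ipow I k := by
      refine Submodule.span_induction ?_ ?_ ?_ ?_ ha
      · rintro _ ⟨b, hb, rfl⟩ l
        classical
        have h2 : ((algebraMap R (mRees I) b : mRees I) : MvPolynomial ι R) = C b := rfl
        rw [h2, coeff_C]
        split_ifs with h3
        · rw [← h3, ipow_zero, Ideal.mul_top]; exact hb
        · exact Ideal.zero_mem _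
      · intro l; simp
      · intro x y _ _ hx hy l
        rw [Subalgebra.coe_add, coeff_add]
        exact Ideal.add_mem _ (hx l) (hy l)
      · classical
        intro c x _ hx l
        rw [smul_eq_mul, Subalgebra.coe_mul, coeff_mul]
        refine Ideal.sum_mem _ fun z hz => ?_
        rw [Finset.HasAntidiagonal.mem_antidiagonal] at hz
        rw [← hz, ipow_add, mul_left_comm]
        exact Ideal.mul_mem_mul (c.2 _) (hx _)
    classical
    rw [smul_eq_mul, Subalgebra.coe_mul, coeff_mul]
    refine Ideal.sum_mem _ fun z hz => ?_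
    rw [Finset.HasAntidiagonal.mem_antidiagonal] at hz
    rw [← hz, add_assoc, ipow_add, ← mul_assoc]
    exact Ideal.mul_mem_mul (h1 _) (hE hg _)
  · intro x y hx hy
    rw [Subalgebra.coe_add, coeff_add]
    exact Ideal.add_mem _ hx hy

/-- the homogeneous elements. -/
noncomputable def mono (I : ι → Ideal R) (k : ι →₀ ℕ) : ipow I k →ₗ[R] mRees I where
  toFun a := ⟨monomial k a.1, monomial_mem_mRees I a.2⟩
  map_add' a b := by
    ext1
    simp
  map_smul' r a := by
    ext1
    simp [smul_monomial]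

theorem coe_mono (I : ι → Ideal R) (k : ι →₀ ℕ) (a : ipow I k) :
    (mono I k a : MvPolynomial ι R) = monomial k a.1 := rfl

theorem mono_mem (I : ι → Ideal R) (n : Ideal R) (k : ι →₀ ℕ) {x : R}
    (hx : x ∈ n * ipow I k) (h : x ∈ ipow I k) :
    mono I k ⟨x, h⟩ ∈ n.map (algebraMap R (mRees I)) := by
  have key : ∀ y (_ : y ∈ n * ipow I k), ∃ h : y ∈ ipow I k,
      mono I k ⟨y, h⟩ ∈ n.map (algebraMap R (mRees I)) := by
    intro y hy
    refine Submodule.mul_induction_on hy ?_ ?_
    · intro a ha b hb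
      have h : a * b ∈ ipow I k := Ideal.mul_mem_left _ _ hb
      have h2 : mono I k ⟨a * b, h⟩ = a • mono I k ⟨b, hb⟩ := by
        rw [← map_smul]; rfl
      refine ⟨h, ?_⟩
      rw [h2, Algebra.smul_def]
      exact Ideal.mul_mem_right _ _ (Ideal.mem_map_of_mem _ ha)
    · rintro a b ⟨ha, ha'⟩ ⟨hb, hb'⟩
      refine ⟨Ideal.add_mem _ ha hb, ?_⟩
      have h2 : mono I k ⟨a + b, Ideal.add_mem _ ha hb⟩ = mono I k ⟨a, ha⟩ + mono I k ⟨b, hb⟩ := by
        rw [← map_add]; rfl
      rw [h2]
      exact Ideal.add_mem _ ha' hb'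
  exact (key x hx).2

theorem mono_mem_shiftI (I : ι → Ideal R) (e k : ι →₀ ℕ) {x : R}
    (hx : x ∈ ipow I (k + e)) (h : x ∈ ipow I k) :
    mono I k ⟨x, h⟩ ∈ shiftI I e := by
  classical
  intro l'
  rw [coe_mono, coeff_monomial]
  split_ifs with h
  · rwa [← h]
  · exact Ideal.zero_mem _

theorem exists_artin [IsNoetherianRing R] (I : ι → Ideal R) (m : Ideal R) (e : ι →₀ ℕ) :
    ∃ c : ℕ, ∀ l, c ≤ l → ∀ f : mRees I, f ∈ (m.map (algebraMap R (mRees I))) ^ l →
      f ∈ shiftI I e → f ∈ (m.map (algebraMap R (mRees I))) ^ (l - c) • shiftI I e := by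
  generalize m.map (algebraMap R (mRees I)) = M
  generalize shiftI I e = N
  obtain ⟨c, hc⟩ := Ideal.exists_pow_inf_eq_pow_smul M (M := mRees I) N
  refine ⟨c, fun l hl f h1 h2 => ?_⟩
  have h3 : f ∈ M ^ l • (⊤ : Submodule (mRees I) (mRees I)) ⊓ N := by
    refine ⟨?_, h2⟩
    rw [smul_eq_mul, Ideal.mul_top]
    exact h1
  rw [hc l hl] at h3
  exact Submodule.smul_mono le_rfl inf_le_right h3

/-- One step: `m ^ l * ∏ I ^ k ∩ ∏ I ^ (k + e) ⊆ m ^ (l - c) * ∏ I ^ (k + e)`, uniformly in `k`. -/
theorem exists_step [IsNoetherianRing R] (I : ι → Ideal R) (m : Ideal R) (e : ι →₀ ℕ) :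
    ∃ c : ℕ, ∀ (l : ℕ) (k : ι →₀ ℕ) (x : R), x ∈ m ^ l * ipow I k → x ∈ ipow I (k + e) →
      x ∈ m ^ (l - c) * ipow I (k + e) := by
  obtain ⟨c, hc⟩ := exists_artin I m e
  refine ⟨c, fun l k x hx hx' => ?_⟩
  by_cases hl : c ≤ l
  · have h1 : x ∈ ipow I k := Ideal.mul_le_right hx
    have hf1 := mono_mem I (m ^ l) k hx h1
    rw [Ideal.map_pow] at hf1
    have hf2 := mono_mem_shiftI I e k hx' h1
    have hf4 := coeff_mem_of_mem_map_pow I m e (l - c) _ le_rfl (hc l hl _ hf1 hf2) k
    classical
    rwa [coe_mono, coeff_monomial, if_pos rfl] at hf4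
  · rw [Nat.sub_eq_zero_of_le (by omega), pow_zero, Ideal.one_eq_top, Ideal.top_mul]
    exact hx'

/-- **Linear Artin-Rees lemma.** -/
theorem exists_linear [IsNoetherianRing R] (I : ι → Ideal R) (m : Ideal R) :
    ∃ c : ℕ, ∀ (l : ℕ) (k : ι →₀ ℕ) (x : R), x ∈ m ^ l → x ∈ ipow I k →
      x ∈ m ^ (l - c * ∑ i, k i) * ipow I k := by
  classical
  have h1 : ∀ i, ∃ c : ℕ, ∀ (l : ℕ) (k : ι →₀ ℕ) (x : R), x ∈ m ^ l * ipow I k →
      x ∈ ipow I (k + Finsupp.single i 1) →
      x ∈ m ^ (l - c) * ipow I (k + Finsupp.single i 1) :=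
    fun i => exists_step I m (Finsupp.single i 1)
  choose c hc using h1
  refine ⟨∑ i, c i, ?_⟩
  have key : ∀ (n : ℕ) (l : ℕ) (k : ι →₀ ℕ) (x : R), ∑ i, k i = n → x ∈ m ^ l → x ∈ ipow I k →
      x ∈ m ^ (l - (∑ i, c i) * n) * ipow I k := by
    intro n
    induction n with
    | zero =>
      intro l k x hk hx _
      have : k = 0 := by
        ext i
        have := (Finset.sum_eq_zero_iff_of_nonneg (fun i _ => Nat.zero_le (k i))).1 hk i
          (Finset.mem_univ i)
        simpa using this
      rw [this, ipow_zero, Ideal.mul_top, mul_zero, Nat.sub_zero]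
      exact hx
    | succ n ih =>
      intro l k x hk hx hx'
      obtain ⟨i, hi⟩ : ∃ i, k i ≠ 0 := by
        by_contra hcon
        push Not at hcon
        simp [hcon] at hk
      obtain ⟨k', rfl⟩ : ∃ k', k = k' + Finsupp.single i 1 := by
        have : Finsupp.single i 1 ≤ k := by
          rw [Finsupp.single_le_iff]; omega
        obtain ⟨k', h⟩ := exists_add_of_le this
        exact ⟨k', by rw [h, add_comm]⟩
      have hk' : ∑ j, k' j = n := by
        simp only [Finsupp.add_apply, Finset.sum_add_distrib] at hk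
        have : ∑ j, (Finsupp.single i 1 : ι →₀ ℕ) j = 1 := by
          simp
        omega
      have h2 := ih l k' x hk' hx (ipow_antitone I (by simp) hx')
      have h3 := hc i _ k' x h2 hx'
      refine Ideal.mul_mono_left (Ideal.pow_le_pow_right ?_) h3
      have : c i ≤ ∑ i, c i := Finset.single_le_sum (fun i _ => Nat.zero_le (c i))
        (Finset.mem_univ i)
      rw [mul_add, mul_one]
      omega
  exact fun l k x => key _ l k x rfl

end Vale.Agent.P177.AR
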