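import Vale.Agent.P177.AR.Flat

import Vale.Agent.P177.AR.Abs

/-!
# P177, block (AR): the projection `W(C) → B/p^N` and its kernel
-/

set_option linter.all false

namespace Vale.Agent.P177.AR

open TensorProduct Polynomial Vale.Agent.P202.Mix Vale.Agent.P177.PI Vale.Agent.P177.Perf

universe u

section

variable {p : ℕ} [Fact p.Prime] {k : Type u} [Field k] [CharP k p] {r : ℕ}
variable {Λ : Type u} [CommRing Λ] (ψ : Λ →+* WittVector p (Rp p k r))
variable (C : Type u) [CommRing C] [Algebra (Rp p k r) C]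

/-- the projection `W(C) → B/p^N`. -/
noncomputable def piN (N : ℕ) : WittVector p C →+* BN ψ C N :=
  (mkN ψ C N).comp (toB p C (tC p k r C))

theorem piN_surjective (N : ℕ) : Function.Surjective (piN ψ C N) := by
  intro x
  obtain ⟨y, rfl⟩ := mkN_surjective C N x
  obtain ⟨z, rfl⟩ := Ideal.Quotient.mk_surjective y
  exact ⟨z, rfl⟩

theorem piN_te (N : ℕ) (c : C) : piN ψ C N (WittVector.teichmuller p c) = teN ψ C N c := rfl

theorem ker_piN (N : ℕ) : RingHom.ker (piN ψ C N) = XI p (tC p k r C) N := by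
  ext x
  rw [RingHom.mem_ker, mem_XI]
  constructor
  · intro h
    have h1 : mkN ψ C N (toB p C (tC p k r C) x) = 0 := h
    rw [mkN_eq_zero_iff C N, Ideal.mem_span_singleton'] at h1
    obtain ⟨c, hc⟩ := h1
    obtain ⟨w, rfl⟩ : ∃ w, toB p C (tC p k r C) w = c := Ideal.Quotient.mk_surjective c
    have h2 : toB p C (tC p k r C) (x - (p : WittVector p C) ^ N * w) = 0 := by
      rw [map_sub, map_mul, map_pow, map_natCast, ← hc]
      ring
    have h3 : x - (p : WittVector p C) ^ N * w ∈
        Ideal.span {(p : WittVector p C) - WittVector.teichmuller p (tC p k r C)} :=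
      Ideal.Quotient.eq_zero_iff_mem.1 h2
    rw [Ideal.mem_span_singleton'] at h3
    obtain ⟨v, hv⟩ := h3
    exact ⟨v, w, by linear_combination -hv⟩
  · rintro ⟨v, w, rfl⟩
    show mkN ψ C N (toB p C (tC p k r C) _) = 0
    rw [mkN_eq_zero_iff C N, Ideal.mem_span_singleton']
    refine ⟨toB p C (tC p k r C) w, ?_⟩
    have h0 : toB p C (tC p k r C) ((p : WittVector p C) -
        WittVector.teichmuller p (tC p k r C)) = 0 :=
      Ideal.Quotient.eq_zero_iff_mem.2 (Ideal.mem_span_singleton_self _)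
    rw [map_add, map_mul, h0, zero_mul, zero_add, map_mul, map_pow, map_natCast]
    ring

theorem mem_sup_XI (N : ℕ) (𝔞 : Ideal (WittVector p C)) (x : WittVector p C) :
    x ∈ 𝔞 ⊔ XI p (tC p k r C) N ↔ piN ψ C N x ∈ 𝔞.map (piN ψ C N) := by
  rw [← ker_piN ψ C N, ← Ideal.mem_comap, Ideal.comap_map_of_surjective _ (piN_surjective ψ C N)]
  rfl

end

end Vale.Agent.P177.AR
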