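import Vale.Agent.P177.AR.TR
import Vale.Agent.P177.AR.Flat
import Vale.Agent.P202.Mix.T7
import Vale.Agent.P177.AR.PiN

/-!
# P177, block ARTR: almost Artin-Rees for the covers `CData` of P202
-/

set_option linter.all false

namespace Vale.Agent.P177.AR

open TensorProduct Polynomial WittVector Vale.Agent.P177.PI Vale.Agent.P177.Perf
  Vale.Agent.P202.Mix

universe u

variable {p : ℕ} [Fact p.Prime] {k : Type u} [Field k] [CharP k p] {r : ℕ}
variable {Λ : Type u} [CommRing Λ] {u : Fin r → Λ} {ψ : Λ →+* WittVector p (Rp p k r)}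
  {red : Λ →+* R0 k r ⧸ Ideal.span {(MvPowerSeries.X 0 : R0 k r)}}

variable {s D : ℕ}

/-- the algebra `Λ[T]/(F_j(T_j))`. -/
abbrev FA (F : Fin s → Λ[X]) : Type u :=
  MvPolynomial (Fin s) Λ ⧸ Ideal.span (Set.range fun j => Polynomial.toMvPolynomial j (F j))

/-- the projection `Λ[T] → FA F`. -/
noncomputable abbrev mkF (F : Fin s → Λ[X]) : MvPolynomial (Fin s) Λ →ₐ[Λ] FA F :=
  Ideal.Quotient.mkₐ Λ _

theorem aeval_toMv {B : Type*} [CommRing B] [Algebra Λ B] (x : Fin s → B) (j : Fin s)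
    (f : Λ[X]) : MvPolynomial.aeval x (Polynomial.toMvPolynomial j f) = aeval (x j) f := by
  induction f using Polynomial.induction_on' with
  | add f g hf hg => rw [map_add, map_add, map_add, hf, hg]
  | monomial n c =>
    rw [← C_mul_X_pow_eq_monomial, map_mul, map_pow, toMvPolynomial_X, toMvPolynomial_C]
    simp [Algebra.smul_def]

theorem mkF_root (F : Fin s → Λ[X]) (j : Fin s) :
    aeval (mkF F (MvPolynomial.X j)) (F j) = 0 := by
  rw [aeval_algHom_apply]
  have h1 : aeval (MvPolynomial.X j : MvPolynomial (Fin s) Λ) (F j) =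
      Polynomial.toMvPolynomial j (F j) := by
    rw [← aeval_toMv (MvPolynomial.X : Fin s → MvPolynomial (Fin s) Λ) j (F j)]
    simp
  rw [h1]
  exact Ideal.Quotient.eq_zero_iff_mem.2 (Ideal.subset_span ⟨j, rfl⟩)

theorem adjoin_mkF (F : Fin s → Λ[X]) :
    Algebra.adjoin Λ (Set.range fun j => mkF F (MvPolynomial.X j)) = ⊤ := by
  rw [Algebra.adjoin_range_eq_range_aeval, AlgHom.range_eq_top]
  have h1 : MvPolynomial.aeval (fun j => mkF F (MvPolynomial.X j)) = mkF F := by
    ext j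
    simp
  rw [h1]
  exact Ideal.Quotient.mkₐ_surjective _ _

variable {F : Fin s → Λ[X]} {E : MvPolynomial (Fin s) Λ} {g : Λ} {I r0 : ℕ}

/-- the homomorphism `Λ[T]/(F_j(T_j)) → B/p^N` attached to a choice of roots. -/
noncomputable def PsiN (d : CData.{u} ψ (D := D) F E g I r0) (π : Fin s → Fin D) {N : ℕ}
    (hN : N ≤ I + 1) : FA F →ₐ[Λ] BN ψ d.C N :=
  Ideal.Quotient.liftₐ _ (MvPolynomial.aeval fun j => teN ψ d.C N (d.c j (π j))) (by
    intro a ha
    have h : Ideal.span (Set.range fun j => Polynomial.toMvPolynomial j (F j)) ≤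
        RingHom.ker (MvPolynomial.aeval fun j => teN ψ d.C N (d.c j (π j)) :
          MvPolynomial (Fin s) Λ →ₐ[Λ] BN ψ d.C N) := by
      rw [Ideal.span_le]
      rintro _ ⟨j, rfl⟩
      rw [SetLike.mem_coe, RingHom.mem_ker]
      refine (aeval_toMv _ j (F j)).trans ?_
      rw [aeval_def, ← eval_map, nm_split d hN, eval_prod]
      refine Finset.prod_eq_zero (Finset.mem_univ (π j)) ?_
      rw [eval_sub, eval_X, eval_C, sub_self]
    exact h ha)

theorem PsiN_mk (d : CData.{u} ψ (D := D) F E g I r0) (π : Fin s → Fin D) {N : ℕ}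
    (hN : N ≤ I + 1) (f : MvPolynomial (Fin s) Λ) :
    PsiN d π hN (mkF F f) = MvPolynomial.aeval (fun j => teN ψ d.C N (d.c j (π j))) f := rfl

/-- the monomials in the chosen roots. -/
noncomputable def cm (d : CData.{u} ψ (D := D) F E g I r0) (π : Fin s → Fin D)
    (e : Fin s → ℕ) : d.C := ∏ j, d.c j (π j) ^ e j

/-- the monomials in `Λ[T]`. -/
noncomputable def mX (e : Fin s → ℕ) : MvPolynomial (Fin s) Λ := ∏ j, MvPolynomial.X j ^ e j

theorem PsiN_mX (d : CData.{u} ψ (D := D) F E g I r0) (π : Fin s → Fin D) {N : ℕ}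
    (hN : N ≤ I + 1) (e : Fin s → ℕ) :
    PsiN d π hN (mkF F (mX e)) = piN ψ d.C N (teichmuller p (cm d π e)) := by
  rw [PsiN_mk, mX, cm]
  simp only [map_prod, map_pow, MvPolynomial.aeval_X]
  rfl

theorem PsiN_E (d : CData.{u} ψ (D := D) F E g I r0) (π : Fin s → Fin D) {N : ℕ}
    (hN : N ≤ I + 1) : PsiN d π hN (mkF F E) = piN ψ d.C N (teichmuller p (d.δ π)) := by
  rw [PsiN_mk]
  have h1 := nm_mkN_zero (ψ := ψ) d.C hN (d.hδ π)
  rw [map_sub, sub_eq_zero, MvPolynomial.eval₂_comp_left] at h1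
  exact h1.symm

/-- **Almost Artin-Rees for `CData`.** `c` depends only on `F` and the exponents `ee` of the
generators `g_l = ∏_j c_j^(ee l j)` of the ideal `P`; `Y = (t, u_1, .., u_r)`. -/
theorem exists_level_ar [IsNoetherianRing Λ] (hb : IsBase p k r Λ u ψ red) (F : Fin s → Λ[X])
    {m : ℕ} (ee : Fin m → Fin s → ℕ) :
    ∃ c : ℕ, ∀ {E : MvPolynomial (Fin s) Λ} {g : Λ} {I r0 : ℕ}
      (d : CData.{u} ψ (D := D) F E g I r0) (π : Fin s → Fin D)
      {A : Type u} [CommRing A] [Algebra Λ A] (a : Fin s → A)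
      (hE : ∀ f : MvPolynomial (Fin s) Λ, MvPolynomial.aeval a f = 0 →
        E * f ∈ Ideal.span (Set.range fun j => Polynomial.toMvPolynomial j (F j)))
      (e0 : Fin s → ℕ) (z : MvPolynomial (Fin s) Λ)
      (hz : MvPolynomial.aeval a z * ∏ j, aeval (a j) (derivative (F j)) = ∏ j, a j ^ e0 j)
      (l0 : Fin m) (K f : ℕ) (hm : m ≤ p ^ f) (h1 : K * p ^ f * p ^ f ≤ I + 1)
      (h2 : (K + c + (r + 1)) * p ^ f ≤ I + 1) (x : d.C)
      (hx : x ∈ perfHull p (Ideal.span (Set.range fun l => cm d π (ee l))))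
      (hx' : x ∈ perfHull p (Ideal.span (Set.range fun i : Fin (r + 1) =>
        algebraMap (Rp p k r) d.C (xp p k r i)) ^ (K + c + (r + 1)))),
      PI.rt p f (cm d π (ee l0)) ^ (m + 1) * PI.rt p f (d.δ π * cm d π e0) * x ∈
        perfHull p (Ideal.span (Set.range fun i : Fin (r + 1) =>
          algebraMap (Rp p k r) d.C (xp p k r i)) ^ K *
            Ideal.span (Set.range fun l => cm d π (ee l))) := by
  obtain ⟨c, hc⟩ := exists_linear_one
    (Ideal.span (Set.range fun l => mkF F (mX (ee l))))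
    (Ideal.span (Set.range (Fin.cons (p : FA F) fun i => algebraMap Λ (FA F) (u i) :
      Fin (r + 1) → FA F)))
  refine ⟨c, ?_⟩
  intro E g I r0 d π A _ _ a hE e0 z hz l0 K f hm h1 h2 x hx hx'
  refine almost_ar p (A := FA F) (B := BN ψ d.C (I + 1)) (fun l => cm d π (ee l)) _
    (tC p k r d.C) (tC_mem_nonZeroDivisors d.toPExt) (Ideal.subset_span ⟨0, rfl⟩) (I + 1)
    (piN ψ d.C (I + 1)) (piN_surjective ψ d.C (I + 1)) (ker_piN ψ d.C (I + 1))
    (flatC_BN hb d.toPExt (I + 1)) (fun j => mkF F (MvPolynomial.X j)) (adjoin_mkF F) F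
    (mkF_root F) (PsiN d π le_rfl) (fun l => mkF F (mX (ee l)))
    (fun l => PsiN_mX d π le_rfl (ee l))
    (Fin.cons (p : FA F) fun i => algebraMap Λ (FA F) (u i)) ?_ ?_
    (d.δ π * cm d π e0) ?_ _ (Ideal.subset_span ⟨l0, rfl⟩) c hc K f hm h1 h2 hx hx'
  · intro i
    refine Fin.cases ?_ (fun i => ?_) i
    · rw [Fin.cons_zero, map_natCast]
      have h3 : piN ψ d.C (I + 1) ((p : WittVector p d.C) - teichmuller p (tC p k r d.C)) = 0 := by
        rw [← RingHom.mem_ker, ker_piN]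
        exact (mem_XI p).2 ⟨1, 0, by ring⟩
      rw [map_sub, map_natCast, sub_eq_zero] at h3
      exact h3
    · rw [Fin.cons_succ, AlgHom.commutes]
      change mkN ψ d.C (I + 1) (laB ψ d.C (u i)) = _
      rw [laB_u hb]
      rfl
  · exact Ideal.subset_span ⟨0, rfl⟩
  · -- `[δ c^e0] ∈ (Ψ(∏ F_j'))`
    have h3 : MvPolynomial.aeval a (mX e0 - z * ∏ j, Polynomial.toMvPolynomial j
        (derivative (F j))) = 0 := by
      rw [map_sub, sub_eq_zero, mX]
      simp only [map_prod, map_mul, map_pow, MvPolynomial.aeval_X, aeval_toMv]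
      exact hz.symm
    have h4 := hE _ h3
    have h5 : mkF F (E * (mX e0 - z * ∏ j, Polynomial.toMvPolynomial j
        (derivative (F j)))) = 0 := Ideal.Quotient.eq_zero_iff_mem.2 h4
    have h6 := congrArg (PsiN d π (le_refl (I + 1))) h5
    rw [map_zero, map_mul (mkF F), map_sub (mkF F), map_mul (PsiN d π le_rfl),
      map_sub (PsiN d π le_rfl), mul_sub, sub_eq_zero, PsiN_E, PsiN_mX, map_mul (mkF F),
      map_mul (PsiN d π le_rfl)] at h6
    have h7 : mkF F (∏ j, Polynomial.toMvPolynomial j (derivative (F j))) =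
        ∏ j, aeval (mkF F (MvPolynomial.X j)) (derivative (F j)) := by
      rw [map_prod]
      refine Finset.prod_congr rfl fun j _ => ?_
      rw [aeval_algHom_apply]
      congr 1
    rw [map_mul (teichmuller p), map_mul (piN ψ d.C (I + 1)), h6, h7, ← mul_assoc]
    exact Ideal.mul_mem_left _ _ (Ideal.mem_span_singleton_self _)

end Vale.Agent.P177.AR
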