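import Vale.Agent.P177.PI.KosW

/-!
P177, transfer of a Teichmueller element: `K ≤ N` perfect ideals, `t ^ L N ⊆ K`, `z ∈ N` and
`[z] ∈ W(K) + (p - [t]) W(N)` imply `z ∈ K`.
-/

namespace Vale.Agent.P177.PI

open WittVector

universe u

variable (p : ℕ) [hp : Fact p.Prime] {C : Type u} [CommRing C] [CharP C p] [PerfectRing C p]

theorem te_transfer_aux {K : Ideal C} (hK : IsPerf p K) (t z : C) (v : WittVector p C) (L : ℕ)
    (h : (∑ i ∈ Finset.range (L + 1), (p : WittVector p C) ^ i *
      teichmuller p (t ^ (L - i) * z)) - (p : WittVector p C) ^ (L + 1) * v ∈ WI p K) : z ∈ K := by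
  have hcc : ∀ x : WittVector p C, x.coeff 0 = WittVector.constantCoeff x := fun x => rfl
  induction L with
  | zero =>
    have h1 := coeff_zero_mem p hK h
    rw [hcc] at h1
    simp only [zero_add, Finset.range_one, Finset.sum_singleton, pow_zero, one_mul, pow_one,
      Nat.sub_zero, map_sub, map_mul, map_natCast, CharP.cast_eq_zero, zero_mul, sub_zero,
      map_one] at h1
    rwa [← hcc, teichmuller_coeff_zero] at h1
  | succ L ih =>
    rw [Finset.sum_range_succ'] at h
    have h1 := coeff_zero_mem p hK h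
    rw [hcc, map_sub, map_add, map_sum] at h1
    have h2 : ∀ i ∈ Finset.range (L + 1), WittVector.constantCoeff ((p : WittVector p C) ^ (i + 1) *
        teichmuller p (t ^ (L + 1 - (i + 1)) * z)) = 0 := by
      intro i _
      rw [map_mul, map_pow, map_natCast, CharP.cast_eq_zero, zero_pow (Nat.succ_ne_zero i),
        zero_mul]
    have h5 : WittVector.constantCoeff ((p : WittVector p C) ^ (L + 1 + 1) * v) = 0 := by
      rw [map_mul, map_pow, map_natCast, CharP.cast_eq_zero, zero_pow (Nat.succ_ne_zero (L + 1)),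
        zero_mul]
    rw [Finset.sum_eq_zero h2, h5, sub_zero, zero_add, pow_zero, one_mul, ← hcc,
      teichmuller_coeff_zero, Nat.sub_zero] at h1
    apply ih
    apply mem_of_p_mul_mem p hK
    have h3 := sub_mem h (te_mem_WI p h1)
    convert h3 using 1
    rw [mul_sub, Finset.mul_sum, pow_zero, one_mul, Nat.sub_zero]
    have h4 : ∑ i ∈ Finset.range (L + 1), (p : WittVector p C) * ((p : WittVector p C) ^ i *
        teichmuller p (t ^ (L - i) * z)) = ∑ i ∈ Finset.range (L + 1),
        (p : WittVector p C) ^ (i + 1) * teichmuller p (t ^ (L + 1 - (i + 1)) * z) := by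
      refine Finset.sum_congr rfl fun i _ => ?_
      rw [Nat.add_sub_add_right, pow_succ']
      ring
    rw [h4]
    ring

/-- **Transfer.** -/
theorem te_transfer {K N : Ideal C} (hK : IsPerf p K) (hN : IsPerf p N) (t z : C) (L : ℕ)
    (htL : ∀ x ∈ N, t ^ L * x ∈ K) (hz : z ∈ N) {v j : WittVector p C} (hv : v ∈ WI p N)
    (hj : j ∈ WI p K) (h : teichmuller p z = j + ((p : WittVector p C) - teichmuller p t) * v) :
    z ∈ K := by
  rcases Nat.eq_zero_or_pos L with rfl | hL
  · have := htL z hz
    rwa [pow_zero, one_mul] at this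
  obtain ⟨L, rfl⟩ : ∃ M, L = M + 1 := ⟨L - 1, by omega⟩
  refine te_transfer_aux p hK t z v L ?_
  -- `S (p - [t]) = p ^ (L + 1) - [t] ^ (L + 1)`
  have h1 : (∑ i ∈ Finset.range (L + 1), (p : WittVector p C) ^ i *
      teichmuller p t ^ (L - i)) * ((p : WittVector p C) - teichmuller p t) =
      (p : WittVector p C) ^ (L + 1) - teichmuller p t ^ (L + 1) := by
    have := (Commute.all (p : WittVector p C) (teichmuller p t)).geom_sum₂_mul (L + 1)
    simpa using this
  have h2 : (∑ i ∈ Finset.range (L + 1), (p : WittVector p C) ^ i *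
      teichmuller p (t ^ (L - i) * z)) = (∑ i ∈ Finset.range (L + 1), (p : WittVector p C) ^ i *
      teichmuller p t ^ (L - i)) * teichmuller p z := by
    rw [Finset.sum_mul]
    refine Finset.sum_congr rfl fun i _ => ?_
    rw [map_mul, map_pow, mul_assoc]
  have h3 : teichmuller p (t ^ (L + 1)) * v ∈ WI p K := te_mul_mem_WI (p := p) hN htL hv
  rw [h2, h]
  have h4 : (∑ i ∈ Finset.range (L + 1), (p : WittVector p C) ^ i * teichmuller p t ^ (L - i)) *
      (j + ((p : WittVector p C) - teichmuller p t) * v) - (p : WittVector p C) ^ (L + 1) * v =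
      (∑ i ∈ Finset.range (L + 1), (p : WittVector p C) ^ i * teichmuller p t ^ (L - i)) * j -
      teichmuller p (t ^ (L + 1)) * v := by
    rw [map_pow]
    linear_combination v * h1
  rw [h4]
  exact sub_mem (Ideal.mul_mem_left _ _ hj) h3

end Vale.Agent.P177.PI
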