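import Vale.Agent.P177.AR.Abs
import Vale.Agent.P177.AR.PsiInf
import Vale.Agent.P177.AR.LinAR

/-!
# P177, block ARTR: the transfer property (TR) and almost Artin-Rees at one level
-/

set_option linter.all false

namespace Vale.Agent.P177.AR

open TensorProduct Polynomial WittVector Vale.Agent.P177.PI Vale.Agent.P177.Perf

universe u

/-- the linear Artin-Rees lemma for the powers of one ideal. -/
theorem exists_linear_one {R : Type*} [CommRing R] [IsNoetherianRing R] (I m : Ideal R) :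
    ∃ c : ℕ, ∀ (l k : ℕ) (x : R), x ∈ m ^ (l + c * k) → x ∈ I ^ k → x ∈ m ^ l * I ^ k := by
  obtain ⟨c, hc⟩ := exists_linear (fun _ : Unit => I) m
  refine ⟨c, fun l k x h1 h2 => ?_⟩
  have h3 : ipow (fun _ : Unit => I) (Finsupp.single () k) = I ^ k := by
    simp [ipow]
  have h4 := hc (l + c * k) (Finsupp.single () k) x h1 (by rw [h3]; exact h2)
  rw [h3] at h4
  simpa using h4

variable (p : ℕ) [hp : Fact p.Prime] {C : Type u} [CommRing C]
  {Λ : Type u} [CommRing Λ] {A B : Type u} [CommRing A] [Algebra Λ A]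
  [CommRing B] [Algebra Λ B]

/-- **(TR).** -/
theorem hTR_of {m n : ℕ} (g : Fin m → C) (y : Fin n → C) (t : C) (ν : ℕ)
    (π : WittVector p C →+* B) (hπ : Function.Surjective π) (hker : RingHom.ker π = XI p t ν)
    (hB : FlatC Λ B ((p : Λ) ^ ν)) {ι : Type*} [Fintype ι] (T : ι → A)
    (hT : Algebra.adjoin Λ (Set.range T) = ⊤) (F : ι → Λ[X])
    (hF : ∀ j, aeval (T j) (F j) = 0) (Ψ : A →ₐ[Λ] B)
    (a : Fin m → A) (ha : ∀ l, Ψ (a l) = π (teichmuller p (g l)))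
    (b : Fin n → A) (hb : ∀ i, Ψ (b i) = π (teichmuller p (y i)))
    (hpb : (p : A) ∈ Ideal.span (Set.range b))
    (γ0 : C) (hγ : π (teichmuller p γ0) ∈
      Ideal.span {Ψ (∏ j, aeval (T j) (derivative (F j)))})
    (c : ℕ) (hc : ∀ (l k : ℕ) (x : A), x ∈ Ideal.span (Set.range b) ^ (l + c * k) →
      x ∈ Ideal.span (Set.range a) ^ k →
      x ∈ Ideal.span (Set.range b) ^ l * Ideal.span (Set.range a) ^ k)
    (k l K2 : ℕ) (hK2 : l + c * k ≤ K2) (hν : K2 ≤ ν) (z : C)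
    (h1 : teichmuller p z ∈ TG p g ^ k ⊔ XI p t ν)
    (h2 : teichmuller p z ∈ TG p y ^ K2 ⊔ XI p t ν) :
    teichmuller p (γ0 * z) ∈ TG p y ^ l * TG p g ^ k ⊔ XI p t ν := by
  -- `x ∈ I ⊔ XI ↔ π x ∈ I.map π`
  have hmem : ∀ (I : Ideal (WittVector p C)) (x : WittVector p C),
      x ∈ I ⊔ XI p t ν ↔ π x ∈ I.map π := by
    intro I x
    rw [← hker, ← Ideal.comap_map_of_surjective' π hπ I, Ideal.mem_comap]
  have hmapg : (TG p g).map π = (Ideal.span (Set.range a)).map Ψ := by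
    rw [TG, Ideal.map_span, Ideal.map_span, ← Set.range_comp, ← Set.range_comp]
    congr 2
    funext l
    exact (ha l).symm
  have hmapy : (TG p y).map π = (Ideal.span (Set.range b)).map Ψ := by
    rw [TG, Ideal.map_span, Ideal.map_span, ← Set.range_comp, ← Set.range_comp]
    congr 2
    funext l
    exact (hb l).symm
  rw [hmem] at h1 h2 ⊢
  rw [Ideal.map_pow, hmapg, ← Ideal.map_pow] at h1
  rw [Ideal.map_pow, hmapy, ← Ideal.map_pow] at h2
  rw [Ideal.map_mul, Ideal.map_pow, Ideal.map_pow, hmapg, hmapy, ← Ideal.map_pow,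
    ← Ideal.map_pow, ← Ideal.map_mul]
  set P1 := Ideal.span (Set.range a) with hP1
  set Y1 := Ideal.span (Set.range b) with hY1
  have hpY : (p : A) ^ ν ∈ Y1 ^ K2 := Ideal.pow_le_pow_right hν (Ideal.pow_mem_pow hpb ν)
  have hp0 : Ψ ((p : A) ^ ν) = 0 := by
    have h : (p : WittVector p C) ^ ν ∈ RingHom.ker π := by
      rw [hker]
      exact (mem_XI p).2 ⟨0, 1, by ring⟩
    rw [RingHom.mem_ker, map_pow, map_natCast] at h
    rw [map_pow, map_natCast, h]
  have h3 := psi_inf_gen hB T hT F hF Ψ (P1 ^ k ⊔ Ideal.span {(p : A) ^ ν}) (Y1 ^ K2)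
    (by
      rw [map_pow, map_natCast]
      exact (le_sup_right : Ideal.span {(p : A) ^ ν} ≤ _) (Ideal.mem_span_singleton_self _))
    (by rw [map_pow, map_natCast]; exact hpY) (π (teichmuller p z))
    (Ideal.map_mono le_sup_left h1) h2
  have h4 : (P1 ^ k ⊔ Ideal.span {(p : A) ^ ν}) ⊓ Y1 ^ K2 ≤
      Y1 ^ l * P1 ^ k ⊔ Ideal.span {(p : A) ^ ν} := by
    rintro x ⟨hx1, hx2⟩
    obtain ⟨x1, hx1', x2, hx2', rfl⟩ := Submodule.mem_sup.1 hx1
    refine add_mem ((le_sup_left : Y1 ^ l * P1 ^ k ≤ _) ?_)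
      ((le_sup_right : Ideal.span {(p : A) ^ ν} ≤ _) hx2')
    refine hc l k x1 (Ideal.pow_le_pow_right hK2 ?_) hx1'
    have h5 : x2 ∈ Y1 ^ K2 := (Ideal.span_singleton_le_iff_mem _).2 hpY hx2'
    have h6 := sub_mem hx2 h5
    rwa [add_sub_cancel_right] at h6
  have h5 := Ideal.map_mono h4 h3
  rw [Ideal.map_sup, Ideal.map_span, Set.image_singleton, hp0, Ideal.span_singleton_eq_bot.2 rfl,
    sup_bot_eq] at h5
  obtain ⟨e, he⟩ := Ideal.mem_span_singleton'.1 hγ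
  rw [map_mul (teichmuller p), map_mul π, ← he, mul_assoc]
  exact Ideal.mul_mem_left _ _ h5

/-- **Almost Artin-Rees at one level.** The constant `c` depends only on `A, (a), (b)`. -/
theorem almost_ar [CharP C p] [PerfectRing C p] {m n : ℕ} (g : Fin m → C) (y : Fin n → C) (t : C)
    (ht : t ∈ nonZeroDivisors C) (hty : t ∈ Ideal.span (Set.range y)) (ν : ℕ)
    (π : WittVector p C →+* B) (hπ : Function.Surjective π) (hker : RingHom.ker π = XI p t ν)
    (hB : FlatC Λ B ((p : Λ) ^ ν)) {ι : Type*} [Fintype ι] (T : ι → A)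
    (hT : Algebra.adjoin Λ (Set.range T) = ⊤) (F : ι → Λ[X])
    (hF : ∀ j, aeval (T j) (F j) = 0) (Ψ : A →ₐ[Λ] B)
    (a : Fin m → A) (ha : ∀ l, Ψ (a l) = π (teichmuller p (g l)))
    (b : Fin n → A) (hb : ∀ i, Ψ (b i) = π (teichmuller p (y i)))
    (hpb : (p : A) ∈ Ideal.span (Set.range b))
    (γ0 : C) (hγ : π (teichmuller p γ0) ∈
      Ideal.span {Ψ (∏ j, aeval (T j) (derivative (F j)))})
    (g' : C) (hg' : g' ∈ Ideal.span (Set.range g))
    (c : ℕ) (hc : ∀ (l k : ℕ) (x : A), x ∈ Ideal.span (Set.range b) ^ (l + c * k) →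
      x ∈ Ideal.span (Set.range a) ^ k →
      x ∈ Ideal.span (Set.range b) ^ l * Ideal.span (Set.range a) ^ k)
    (K f : ℕ) (hm : m ≤ p ^ f) (hν1 : K * p ^ f * p ^ f ≤ ν) (hν2 : (K + c + n) * p ^ f ≤ ν)
    {x : C} (hx : x ∈ perfHull p (Ideal.span (Set.range g)))
    (hx' : x ∈ perfHull p (Ideal.span (Set.range y) ^ (K + c + n))) :
    rt p f g' ^ (m + 1) * rt p f γ0 * x ∈
      perfHull p (Ideal.span (Set.range y) ^ K * Ideal.span (Set.range g)) := by
  have hq : 1 ≤ p ^ f := Nat.one_le_pow _ _ hp.out.pos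
  have hn : n ≤ (K + c + n) * p ^ f := by nlinarith
  refine ar_abs p g y ht hty γ0 g' hg' f (p ^ f - m) K (K + c + n) ((K + c + n) * p ^ f - n)
    (K * p ^ f) ν (by omega) (by omega) le_rfl hν1 ?_ hx hx'
  intro z h1 h2
  refine hTR_of p g y t ν π hπ hker hB T hT F hF Ψ a ha b hb hpb γ0 hγ c hc _ _ _ ?_ ?_ z h1 h2
  · have h3 : c * (p ^ f - m) ≤ c * p ^ f := Nat.mul_le_mul_left _ (Nat.sub_le _ _)
    have h4 : n ≤ n * p ^ f := by nlinarith
    have h5 : (K + c + n) * p ^ f = K * p ^ f + c * p ^ f + n * p ^ f := by ring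
    omega
  · omega

end Vale.Agent.P177.AR
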