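import Vale.Agent.P177.PI.KosW

/-!
# P177, block ARTR: transfer of almost Artin-Rees to a completion

`φ : C → C'` a homomorphism of perfect rings that induces isomorphisms `C/Y^n = C'/Y^n C'`.
-/

set_option linter.all false

namespace Vale.Agent.P177.AR

open Vale.Agent.P177.PI Vale.Agent.P177.Perf

universe u

variable {p : ℕ} [hp : Fact p.Prime] {C C' : Type*} [CommRing C] [CharP C p] [PerfectRing C p]
  [CommRing C'] [CharP C' p] [PerfectRing C' p]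

theorem map_mem_perfHull (φ : C →+* C') {P : Ideal C} {x : C} (hx : x ∈ perfHull p P) :
    φ x ∈ perfHull p (P.map φ) := by
  obtain ⟨e, he⟩ := hx
  refine ⟨e, ?_⟩
  rw [← map_pow, ← Ideal.map_pow]
  exact Ideal.mem_map_of_mem φ he

theorem mem_perfHull_of_map (φ : C →+* C') (Y : Ideal C)
    (hinj : ∀ n c, φ c ∈ (Y.map φ) ^ n → c ∈ Y ^ n) {B : ℕ} {x : C}
    (hx : φ x ∈ perfHull p ((Y.map φ) ^ B)) : x ∈ perfHull p (Y ^ B) := by
  obtain ⟨e, he⟩ := hx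
  refine ⟨e, ?_⟩
  rw [← map_pow, ← pow_mul] at he
  rw [← pow_mul]
  exact hinj _ _ he

/-- every element of the hull of `P C'` is the sum of an element of the hull of `P` and an
element of the hull of `Y^n P C'`. -/
theorem exists_approx (φ : C →+* C') (Y P : Ideal C)
    (hsurj : ∀ n, ∀ x : C', ∃ c : C, x - φ c ∈ (Y.map φ) ^ n) (n : ℕ) {x : C'}
    (hx : x ∈ perfHull p (P.map φ)) :
    ∃ x0 ∈ perfHull p P, x - φ x0 ∈ perfHull p ((Y.map φ) ^ n * P.map φ) := by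
  obtain ⟨e, he⟩ := hx
  rw [← Ideal.map_pow] at he
  have key : ∀ z ∈ (P ^ p ^ e).map φ, ∃ w ∈ P ^ p ^ e,
      z - φ w ∈ (Y.map φ) ^ (n * p ^ e) * (P ^ p ^ e).map φ := by
    intro z hz
    refine Submodule.span_induction (p := fun z _ => ∃ w ∈ P ^ p ^ e,
      z - φ w ∈ (Y.map φ) ^ (n * p ^ e) * (P ^ p ^ e).map φ) ?_ ?_ ?_ ?_ hz
    · rintro _ ⟨w, hw, rfl⟩
      exact ⟨w, hw, by rw [sub_self]; exact Ideal.zero_mem _⟩
    · exact ⟨0, Ideal.zero_mem _, by rw [map_zero, sub_self]; exact Ideal.zero_mem _⟩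
    · rintro z1 z2 _ _ ⟨w1, h1, h1'⟩ ⟨w2, h2, h2'⟩
      refine ⟨w1 + w2, Ideal.add_mem _ h1 h2, ?_⟩
      have h3 := Ideal.add_mem _ h1' h2'
      rw [map_add]
      convert h3 using 1
      ring
    · rintro r z1 _ ⟨w1, h1, h1'⟩
      obtain ⟨c, hc⟩ := hsurj (n * p ^ e) r
      refine ⟨c * w1, Ideal.mul_mem_left _ _ h1, ?_⟩
      have h2 : r • z1 - φ (c * w1) = r * (z1 - φ w1) + (r - φ c) * φ w1 := by
        rw [smul_eq_mul, map_mul]; ring
      rw [h2]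
      exact Ideal.add_mem _ (Ideal.mul_mem_left _ _ h1')
        (Ideal.mul_mem_mul hc (Ideal.mem_map_of_mem φ h1))
  obtain ⟨w, hw, hw'⟩ := key _ he
  refine ⟨rt p e w, ⟨e, by rw [rt_pow]; exact hw⟩, ⟨e, ?_⟩⟩
  rw [Ideal.map_pow φ P] at hw'
  rw [sub_pow_char_pow, ← map_pow φ, rt_pow, mul_pow, ← pow_mul]
  exact hw'

/-- **transfer of almost Artin-Rees.** -/
theorem ar_transfer (φ : C →+* C') (Y P : Ideal C)
    (hsurj : ∀ n, ∀ x : C', ∃ c : C, x - φ c ∈ (Y.map φ) ^ n)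
    (hinj : ∀ n c, φ c ∈ (Y.map φ) ^ n → c ∈ Y ^ n) (K B : ℕ) (h : C)
    (H : ∀ x, x ∈ perfHull p P → x ∈ perfHull p (Y ^ B) → h * x ∈ perfHull p (Y ^ K * P))
    (x : C') (hx : x ∈ perfHull p (P.map φ)) (hx' : x ∈ perfHull p ((Y.map φ) ^ B)) :
    φ h * x ∈ perfHull p ((Y.map φ) ^ K * P.map φ) := by
  obtain ⟨x0, h0, h1⟩ := exists_approx φ Y P hsurj (K + B) hx
  have e1 : (Y.map φ) ^ (K + B) * P.map φ ≤ (Y.map φ) ^ K * P.map φ :=
    Ideal.mul_mono_left (Ideal.pow_le_pow_right (Nat.le_add_right K B))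
  have e2 : (Y.map φ) ^ (K + B) * P.map φ ≤ (Y.map φ) ^ B :=
    Ideal.mul_le_left.trans (Ideal.pow_le_pow_right (Nat.le_add_left B K))
  have h2 : x - φ x0 ∈ perfHull p ((Y.map φ) ^ K * P.map φ) := perfHull_mono e1 h1
  have h3 : x - φ x0 ∈ perfHull p ((Y.map φ) ^ B) := perfHull_mono e2 h1
  have h4 : φ x0 ∈ perfHull p ((Y.map φ) ^ B) := by
    have h5 := sub_mem hx' h3
    rwa [sub_sub_cancel] at h5
  have h5 := map_mem_perfHull φ (H x0 h0 (mem_perfHull_of_map φ Y hinj h4))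
  rw [Ideal.map_mul, Ideal.map_pow, map_mul] at h5
  have h6 : φ h * x = φ h * φ x0 + φ h * (x - φ x0) := by ring
  rw [h6]
  exact add_mem h5 (Ideal.mul_mem_left _ _ h2)

end Vale.Agent.P177.AR
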